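import Vale.Agent.P014U.G2.Gys
import Vale.Agent.P022K.G2.Dim
import Vale.Agent.P022K.GW.Loc
import Vale.Agent.P011.ArP.Has4

/-!
# P014U, block G2: the local second cohomology for odd primes (rows `NIL`, `UNS`, `DIM1`, `DIMT`;
helper96)
-/

set_option linter.all false

noncomputable section

namespace Vale.Agent.P014U.G2

open NumberField Module IsDedekindDomain
open Vale.Agent.P022 Vale.Agent.P022.C Vale.Agent.P022.H443 Vale.Agent.P022.H916
open Vale.Agent.P027M.S (Inert)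
open Vale.Agent.P022D.W
open Vale.Agent.P022E.GW (Ov)
open Vale.Agent.P022K.G2
open Vale.Agent.P022K.G2.Dm (z2_cj b2_cj ex_fld ord_mul ord_div ex_unif)
open Gy

namespace Dm

variable {p : ℕ} [Fact p.Prime]

section grp

variable {G : Type} [Group G] [TopologicalSpace G] {A A' : Subgroup G}
  {a b c a' b' η : G → ZMod p} {z z' : G → G → ZMod p} {σ : G}

variable (p) in
/-- coboundaries with values in the prime field -/
abbrev B (A : Subgroup G) : Submodule (ZMod p) (G → G → ZMod p) := B2 ∅ A (tr G (ZMod p))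

theorem bc (h : z ∈ B p A) (e : ∀ g ∈ A, ∀ j ∈ A, z' g j = z g j) : z' ∈ B p A :=
  B2.congr h e fun _ _ => rfl

theorem skew (ha : Ch A a) (hb : Ch A b) (h : cup a b ∈ B p A) : cup b a ∈ B p A := by
  simpa using sub_mem (cup_skew ha hb) h

theorem btr {x : G → G → ZMod p} (h : z - x ∈ B p A) (h' : x - z' ∈ B p A) : z - z' ∈ B p A := by
  simpa using add_mem h h'

theorem bts {x : G → G → ZMod p} {r s : ZMod p} (h : z - r • x ∈ B p A) (h' : x - s • z' ∈ B p A) :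
    z - (r * s) • z' ∈ B p A := btr h (by
  rw [mul_smul, ← smul_sub]; exact Submodule.smul_mem _ r h')

theorem cup_smul (a b : G → ZMod p) (r : ZMod p) : cup a (r • b) = r • cup a b :=
  funext₂ fun _ _ => mul_left_comm _ _ _

variable (p) in
/-- the norm index is at most `p` -/
def N2 (A : Subgroup G) : Prop := ∀ η β γ : G → ZMod p, Ch A η → Ch A β → Ch A γ →
  cup η β ∉ B p A → ∃ x : ZMod p, cup η γ - x • cup η β ∈ B p A

theorem N2.left (n : N2 p A) (ha : Ch A a) (ha' : Ch A a') (hc : Ch A c) (h : cup a c ∉ B p A) :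
    ∃ x : ZMod p, cup a' c - x • cup a c ∈ B p A := by
  obtain ⟨x, hx⟩ := n c a a' hc ha ha' (mt (skew hc ha) h)
  refine ⟨x, bc (sub_mem (sub_mem (cup_skew ha' hc) (Submodule.smul_mem _ x (cup_skew ha hc))) hx)
    fun g _ j _ => ?_⟩
  simp only [Pi.sub_apply, Pi.add_apply, Pi.smul_apply, smul_eq_mul]
  ring

/-- the symbols are on a line -/
theorem N2.line (n : N2 p A) (ha : Ch A a) (hb : Ch A b) (ha' : Ch A a') (hb' : Ch A b')
    (h : cup a b ∉ B p A) : ∃ x : ZMod p, cup a' b' - x • cup a b ∈ B p A := by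
  by_cases h1 : cup a b' ∈ B p A
  swap
  · obtain ⟨x, hx⟩ := n.left ha ha' hb' h1
    obtain ⟨y, hy⟩ := n a b b' ha hb hb' h
    exact ⟨_, bts hx hy⟩
  by_cases h2 : cup a' b ∈ B p A
  swap
  · obtain ⟨x, hx⟩ := n a' b b' ha' hb hb' h2
    obtain ⟨y, hy⟩ := n.left ha ha' hb h
    exact ⟨_, bts hx hy⟩
  have e : ∀ x : G → ZMod p, cup x (b + b') = cup x b + cup x b' := fun x =>
    funext fun g => funext fun j => mul_add _ _ _
  obtain ⟨x, hx⟩ := n.left ha ha' (hb.add hb') (by rwa [e, (B p A).add_mem_iff_left h1])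
  rw [e, e] at hx
  refine ⟨x, bc (add_mem (sub_mem hx h2) (Submodule.smul_mem _ x h1)) fun g _ j _ => ?_⟩
  simp only [Pi.sub_apply, Pi.add_apply, Pi.smul_apply, smul_eq_mul]
  ring

theorem ne_of_odd (ha : Ch A a) (s : σ ∈ A) (h : a σ ≠ 0) (o : ¬ p ∣ A'.relIndex A) :
    ∃ g ∈ A', g ∈ A ∧ a g ≠ 0 := by
  by_contra! c
  refine o (Dvd.dvd.trans ?_ (Subgroup.relIndex_dvd_of_le_left A
    (show A' ⊓ A ≤ ha.ker from fun g m => ⟨m.2, c g m.1 m.2⟩)) |>.trans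
    (Subgroup.inf_relIndex_right _ _).dvd)
  haveI : (ha.ker.subgroupOf A).Normal := ⟨fun x hx g => ⟨(g * x * g⁻¹).2, by
    show a (g * x * (g : G)⁻¹) = 0
    rw [ha.1 _ (mul_mem g.2 x.2) _ (inv_mem g.2), ha.1 _ g.2 _ x.2, ha.inv g.2,
      show a x = 0 from hx.2]; ring⟩⟩
  have := ((ha.ker.subgroupOf A).pow_index_mem ⟨σ, s⟩).2
  rw [show (A.subtype (⟨σ, s⟩ ^ _) : G) = σ ^ _ from rfl, ha.pow s] at this
  exact (ZMod.natCast_eq_zero_iff _ p).1 ((mul_eq_zero.1 this).resolve_right h)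

/-- from the prime field to a finite field -/
theorem line_up {k : Type} [Field k] [Finite k] [CharP k p] {z₀ : G → G → ZMod p}
    (H : ∀ z ∈ Z2 ∅ A (tr G (ZMod p)), ∃ a : ZMod p, z - a • z₀ ∈ B p A) {z : G → G → k}
    (hz : z ∈ Z2 ∅ A (tr G k)) :
    ∃ c : k, z - c • (fun x y => ZMod.castHom (dvd_refl p) k (z₀ x y)) ∈ B2 ∅ A (tr G k) := by
  letI := ZMod.algebra k p
  let b := Module.finBasis (ZMod p) k
  choose a ha using fun i => H _ (Z2.amap (ρ' := tr G (ZMod p)) hz (b.coord i).toAddMonoidHom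
    fun _ _ _ => rfl)
  refine ⟨∑ i, a i • b i, B2.congr (Submodule.sum_mem _ fun i (_ : i ∈ Finset.univ) =>
    B2.amap (ρ' := tr G k) (ha i) (LinearMap.toSpanSingleton (ZMod p) k (b i)).toAddMonoidHom
      fun _ _ _ => rfl) (fun x _ y _ => ?_) fun _ _ => rfl⟩
  simp only [Finset.sum_apply, Pi.sub_apply, Pi.smul_apply, smul_eq_mul, Finset.sum_mul,
    LinearMap.toAddMonoidHom_coe, LinearMap.toSpanSingleton_apply, sub_smul,
    Finset.sum_sub_distrib]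
  congr 1
  · exact (b.sum_repr (z x y)).symm
  · refine Finset.sum_congr rfl fun i _ => ?_
    rw [mul_comm (a i), mul_smul, Algebra.smul_def (z₀ x y), mul_comm]
    rfl

end grp

/-- a class which is a symbol on the kernel dies on the kernel -/
theorem dies {A A' : Subgroup GQ} {η a a' b' : GQ → ZMod p} {σ : GQ} {z : GQ → GQ → ZMod p}
    (k : Kr A A' η σ) (hA : A ≤ Gz p) (n : N2 p A') (hz : z ∈ Z2 ∅ A (tp p)) (ha : Ch A a) {y : Qb}
    (y0 : y ≠ 0) (hy : ∀ g ∈ A', g y = y) (h : cup a (ka p (Nm p σ y)) ∉ B p A) (ha' : Ch A' a')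
    (hb' : Ch A' b') (e : z - cup a' b' ∈ B p A') : z ∈ B p A' := by
  obtain ⟨x, hx⟩ := n.line (ha.mono k.le) (ka_ch (k.le.trans hA) y0 hy) ha' hb' fun m =>
    h (k.proj hA (zero_mem _) ha y0 hy (by rwa [zero_sub, neg_mem_iff]))
  have e1 := btr e hx
  by_cases x0 : x = 0
  · simpa [x0] using e1
  have e2 := Submodule.smul_mem _ x⁻¹ e1
  rw [smul_sub, inv_smul_smul₀ x0] at e2
  exact absurd (k.proj hA (Submodule.smul_mem _ _ hz) ha y0 hy e2) h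

variable {l : ℕ} {P : Ideal (𝓞 Qb)} {K : Type} [Field K] [NumberField K]

/-- a local character is the Kummer character of a global element -/
theorem glob (j : K →+* Qb) (hz : GK j ≤ Gz p) (h : Ov l P) {χ : GQ → ZMod p}
    (c : Ch (GK j ⊓ dec P) χ) : ∃ a : K, a ≠ 0 ∧ ∀ g ∈ GK j ⊓ dec P, χ g = ka p (j a) g := by
  obtain ⟨b, b0, b1, b2⟩ := (kum p _ (inf_le_left.trans hz)).1 χ c
  obtain ⟨a, a0, e⟩ := ext p K j (fp P) b hz (mem_ab_fp.2 ⟨l, trivial, h⟩) b0 (by rwa [st_fp])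
  rw [st_fp] at e
  exact ⟨a, a0, fun g hg => (b2 g hg).trans (e g hg).symm⟩

omit [NumberField K] in
theorem kch (j : K →+* Qb) (hz : GK j ≤ Gz p) {a : K} (a0 : a ≠ 0) {A : Subgroup GQ}
    (le : A ≤ GK j) : Ch A (ka p (j a)) :=
  ka_ch (le.trans hz) ((map_ne_zero j).2 a0) fun g hg => le hg a

theorem ord_pow (v : HeightOneSpectrum (𝓞 K)) (x : K) (n : ℕ) : ordv v (x ^ n) = n * ordv v x := by
  unfold ordv
  rw [map_pow, WithZero.log_pow]
  simp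

/-- the decomposition group preserves the valuation -/
theorem val_act {M : Type} [Field M] [NumberField M] [Algebra K M] {j : K →+* Qb} {jM : M →+* Qb}
    {ρ : GK j →* (M ≃ₐ[K] M)} (D : Dict j jM ρ) (h : Ov l P) (s : GK j) (hs : s.1 ∈ dec P) (y : M) :
    (blw jM h).valuation M (ρ s y) = (blw jM h).valuation M y := by
  have e2 : P027M.S.Gen.cm (ρ s).toRingEquiv (blw jM h) = blw jM h :=
    HeightOneSpectrum.ext (Ideal.ext fun x => by
      refine Iff.trans ?_ (hs (RingOfIntegers.mapRingHom jM x))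
      rw [D.smul_map s x]
      rfl)
  have := P027M.S.Gen.val_cm (ρ s).toRingEquiv (blw jM h) y
  rw [e2] at this
  exact this.symm

/-- the cyclic extension which belongs to a local character; norms -/
theorem quad (j : K →+* Qb) (hz : GK j ≤ Gz p) (h : Ov l P) {v : HeightOneSpectrum (𝓞 K)}
    (hv : below j P = v.asIdeal) {A' : Subgroup GQ} {η : GQ → ZMod p} {σ : GQ}
    (k : Kr (GK j ⊓ dec P) A' η σ) :
    ∃ (M : Type) (_ : Field M) (_ : NumberField M) (jM : M →+* Qb) (w : HeightOneSpectrum (𝓞 M))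
      (e : ℕ), GK jM ≤ Gz p ∧ A' = GK jM ⊓ dec P ∧ (e = 1 ↔ ∀ i ∈ GK j, Inert P i → η i = 0) ∧
      ∀ y : M, y ≠ 0 → ∃ n : K, n ≠ 0 ∧ (e : ℤ) * ordv v n = p * ordv w y ∧
        j n = Nm p σ (jM y) := by
  obtain ⟨d, d0, hd⟩ := glob j hz h k.ch
  have c := kch j hz d0 le_rfl
  have k' : Kr (GK j) c.ker (ka p (j d)) σ := ⟨c, fun _ => Iff.rfl, k.sm.1, hd σ k.sm ▸ k.s1⟩
  obtain ⟨M, _, _, _, _, jM, ρ, D, hM, hker⟩ := exists_fld j c.ker
    (c.le_ker.isOpen (isOpen_GK j)) k'.le fun g hg u hu => k'.cj hg hu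
  have hA : A' = GK jM ⊓ dec P := Subgroup.ext fun g => by
    rw [k.mem, hM]
    exact ⟨fun m => ⟨⟨m.1.1, hd g m.1 ▸ m.2⟩, m.1.2⟩,
      fun m => ⟨⟨m.1.1, m.2⟩, (hd g ⟨m.1.1, m.2⟩).trans m.1.2⟩⟩
  let w := blw jM h
  haveI := H269.liesOver_dn v w ((D.below_comap P).trans hv)
  have he := Ideal.card_inertia_eq_ramificationIdxIn (G := M ≃ₐ[K] M) v.asIdeal w.asIdeal
  rw [Ideal.ramificationIdxIn_eq_ramificationIdx v.asIdeal w.asIdeal (M ≃ₐ[K] M),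
    ← Ideal.ramificationIdx'_eq_ramificationIdx _ _ v.ne_bot] at he
  refine ⟨M, _, inferInstance, jM, w, v.asIdeal.ramificationIdx' w.asIdeal,
    hM ▸ k'.le.trans hz, hA, ?_, fun y y0 => ?_⟩
  · rw [← he, Subgroup.card_eq_one, Subgroup.eq_bot_iff_forall]
    exact ⟨fun b i hi m => (hd i ⟨hi, inP_le_dec m⟩).trans
        ((hker ⟨i, hi⟩).1 (b _ fun x => D.inertia_push (g := ⟨i, hi⟩) m x)).2,
      fun b τ m => D.inertia_eq_bot h.2.1 (fun g hg => (hker g).2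
        ⟨g.2, (hd g ⟨g.2, inP_le_dec hg⟩).symm.trans (b g g.2 hg)⟩) m⟩
  have f1 : ∀ u ∈ c.ker, u (jM y) = jM y := fun u hu => (hM ▸ hu : u ∈ GK jM) y
  obtain ⟨n, hn⟩ := fixed j (x := Nm p σ (jM y)) fun g => k'.nm_fix f1 g.2
  refine ⟨n, (map_ne_zero j).1 (hn ▸ nm_ne ((map_ne_zero jM).2 y0)), ?_, hn⟩
  have e1 : algebraMap K M n = ∏ i ∈ Finset.range p, ρ (⟨σ, k.sm.1⟩ ^ i) y :=
    jM.injective (by
      rw [D.comp, hn, map_prod]
      exact Finset.prod_congr rfl fun i _ => by rw [← D.act]; rfl)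
  have e4 : w.valuation M (algebraMap K M n) = w.valuation M (y ^ p) := by
    rw [e1, map_prod, Finset.prod_congr rfl fun i _ =>
      val_act D h (⟨σ, k.sm.1⟩ ^ i) ((dec P).pow_mem k.sm.2 i) y, Finset.prod_const,
      Finset.card_range, map_pow]
  rw [← ord_pow w, ordv, ordv, ← e4, ← HeightOneSpectrum.valuation_liesOver M v w n, WithZero.log_pow]
  simp

/-- a norm from the unramified extension has order divisible by `p` -/
theorem uns1 (j : K →+* Qb) (hz : GK j ≤ Gz p) (h : Ov l P) {v : HeightOneSpectrum (𝓞 K)}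
    (hv : below j P = v.asIdeal) {u : GQ → ZMod p} (hu : Ch (GK j ⊓ dec P) u)
    (hI : ∀ g ∈ GK j, Inert P g → u g = 0) (hs : ∃ σ ∈ GK j ⊓ dec P, u σ ≠ 0) {a : K} (a0 : a ≠ 0)
    (hb : cup u (ka p (j a)) ∈ B p (GK j ⊓ dec P)) : (p : ℤ) ∣ ordv v a := by
  obtain ⟨s, hs, s0⟩ := hs
  obtain ⟨σ, s1, s2⟩ := ex_one hu hs s0
  have k : Kr (GK j ⊓ dec P) hu.ker u σ := ⟨hu, fun _ => Iff.rfl, s1, s2⟩
  have hA : GK j ⊓ dec P ≤ Gz p := inf_le_left.trans hz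
  have a1 := (map_ne_zero j).2 a0
  obtain ⟨x, x1, x2⟩ := k.exa hA a1 (fun g hg => hg.1 a) hb
  have x0 : x ≠ 0 := fun e => a1 (x2.symm.trans (Finset.prod_eq_zero
    (Finset.mem_range.2 (Fact.out : p.Prime).pos) (by rw [e, map_zero])))
  obtain ⟨M, _, _, jM, w, e, hM, hA', he, H⟩ := quad j hz h hv k
  obtain ⟨y, y0, hy⟩ := glob jM hM h (hA' ▸ ka_ch (k.le.trans hA) x0 x1)
  obtain ⟨n, n0, h1, t'⟩ := H y y0
  have y1 := (map_ne_zero jM).2 y0
  have f : ∀ g ∈ hu.ker, g (jM y) = jM y := fun g m => (hA' ▸ m : g ∈ GK jM ⊓ dec P).1 y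
  obtain ⟨t, t1, t2⟩ := (((kum p _ (k.le.trans hA)).2 (x / jM y) (div_ne_zero x0 y1)
    fun g m => by rw [map_div₀, x1 g m, f g m]).2).1 fun g m => by
      rw [ka_div x0 y1 (hA (k.le m)) (x1 g m) (f g m), hy g (hA' ▸ m), sub_self]
  have t0 : t ≠ 0 := root_ne (div_ne_zero x0 y1) t2
  have e1 : j (a / n) = Nm p σ t ^ p := by
    rw [map_div₀, t', ← x2]
    unfold Gy.Nm
    rw [← Finset.prod_div_distrib, ← Finset.prod_pow]
    exact Finset.prod_congr rfl fun i _ => by rw [← map_pow, t2, map_div₀]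
  have h2 := dvd_ordv (p := p) j h hv (div_ne_zero a0 n0) fun g hg i => ⟨hz hg, by
    rw [e1, ka_pp (nm_ne t0) (hz hg) (k.nm_fix t1 ⟨hg, inP_le_dec i⟩)]⟩
  rw [he.2 hI, Nat.cast_one, one_mul] at h1
  rw [ord_div v a0 n0, h1] at h2
  exact (dvd_sub_left (dvd_mul_right _ _)).1 h2

theorem not_one : ¬ (p : ℤ) ∣ 1 := fun h =>
  (Fact.out : p.Prime).one_lt.ne' (Nat.dvd_one.1 (Int.natCast_dvd_natCast.1 h))

variable (p) in
/-- the local groups -/
def Lo (P : Ideal (𝓞 Qb)) (A : Subgroup GQ) : Prop :=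
  ∃ H : Subgroup GQ, IsOpen (H : Set GQ) ∧ H ≤ Gz p ∧ A = H ⊓ dec P

/-- unramified characters which are not trivial -/
def Un (P : Ideal (𝓞 Qb)) (A : Subgroup GQ) (u : GQ → ZMod p) : Prop :=
  Ch A u ∧ (∀ g ∈ A, Inert P g → u g = 0) ∧ ∃ σ ∈ A, u σ ≠ 0

variable {A A' : Subgroup GQ} {u : GQ → ZMod p}

theorem Lo.gz (h : Lo p P A) : A ≤ Gz p := by
  obtain ⟨H, -, e, rfl⟩ := h
  exact inf_le_left.trans e

theorem Lo.sub (h : Lo p P A) (le : A' ≤ A) (e : Le ∅ A A') : Lo p P A' := by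
  obtain ⟨H, o, hz, rfl⟩ := h
  obtain ⟨W, hW, e⟩ := e
  obtain ⟨V, hV, lV⟩ := ex_lv' (H := H ⊓ W) (o.inter hW.opn)
  haveI := hV.nrm
  refine ⟨A' ⊔ V, Subgroup.isOpen_mono le_sup_right hV.opn,
    (sup_le (le.trans inf_le_left) (lV.trans inf_le_left)).trans hz, le_antisymm
    (le_inf le_sup_left (le.trans inf_le_right)) fun g m => ?_⟩
  obtain ⟨a, ha, w, hw, rfl⟩ := Subgroup.mem_sup_of_normal_right.1 m.1
  exact mul_mem ha (e w ⟨(lV hw).1, (Subgroup.mul_mem_cancel_left _ (le ha).2).1 m.2⟩ (lV hw).2)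

theorem Lo.fld (h : Lo p P A) : ∃ (K : Type) (_ : Field K) (_ : NumberField K) (j : K →+* Qb),
    GK j ≤ Gz p ∧ A = GK j ⊓ dec P := by
  obtain ⟨H, o, hz, rfl⟩ := h
  obtain ⟨K, _, _, j, rfl⟩ := ex_fld o
  exact ⟨K, _, inferInstance, j, hz, rfl⟩

theorem Lo.un (h : Lo p P A) (o : Ov l P) : ∃ u : GQ → ZMod p, Un P A u := by
  obtain ⟨H, hH, -, rfl⟩ := h
  obtain ⟨u, u1, u2, σ, s, s1⟩ := uch p H l P hH o
  exact ⟨u, u1, fun g m => u2 g m.1, σ, s, s1 ▸ one_ne_zero⟩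

theorem Lo.n2 (hN : NIL p) (h : Lo p P A) (o : Ov l P) : N2 p A := fun η β γ a b c m => by
  obtain ⟨H, hH, hz, rfl⟩ := h
  exact hN H l P η β γ hH hz o a b c m

theorem Lo.nz (h : Lo p P A) (o : Ov l P) (hu : Un P A u) : ∃ β, Ch A β ∧ cup u β ∉ B p A := by
  obtain ⟨K, _, _, j, hz, rfl⟩ := h.fld
  obtain ⟨π, p0, p1⟩ := ex_unif (blw j o)
  refine ⟨_, kch j hz p0 inf_le_left, fun m => not_one (p := p) (p1 ▸ ?_)⟩
  exact uns1 j hz o (v := blw j o) rfl hu.1 (fun g a i => hu.2.1 g ⟨a, inP_le_dec i⟩ i) hu.2.2 p0 m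

/-- every symbol is an unramified symbol -/
theorem Lo.sym (hN : NIL p) (h : Lo p P A) (o : Ov l P) (hu : Un P A u) {a b : GQ → ZMod p}
    (ha : Ch A a) (hb : Ch A b) : ∃ β, Ch A β ∧ cup a b - cup u β ∈ B p A := by
  obtain ⟨β, c, m⟩ := h.nz o hu
  obtain ⟨x, hx⟩ := (h.n2 hN o).line hu.1 c ha hb m
  exact ⟨x • β, c.smul x, by rwa [cup_smul]⟩

/-- the transfer does not kill the symbols -/
theorem Lo.key (h : Lo p P A) (o : Ov l P) {η : GQ → ZMod p} {σ : GQ} (k : Kr A A' η σ) :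
    ∃ (a : GQ → ZMod p) (y : Qb), Ch A a ∧ y ≠ 0 ∧ (∀ g ∈ A', g y = y) ∧
      cup a (ka p (Nm p σ y)) ∉ B p A := by
  by_cases r : ∀ g ∈ A, Inert P g → η g = 0
  · obtain ⟨β, c, m⟩ := h.nz o ⟨k.ch, r, σ, k.sm, k.s1 ▸ one_ne_zero⟩
    have hA := h.gz
    obtain ⟨d, d0, d1, d2⟩ := (kum p _ hA).1 η k.ch
    obtain ⟨H, hH, -, rfl⟩ := h
    obtain ⟨y, y1, y2⟩ := k.exa hA d0 d1 (bc (unr p _ H l P _ hH o (cup_z2 k.ch k.ch)
      fun g a j b i c d => by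
        have m : i ∈ H ⊓ dec P := ⟨c, inP_le_dec d⟩
        simp only [cup, k.ch.1 g a i m, k.ch.1 j b i m, r i m d, add_zero, and_self])
      fun g _ x hx => by simp only [cup, d2 x hx])
    refine ⟨β, y, c, fun e => d0 (y2.symm.trans (Finset.prod_eq_zero
      (Finset.mem_range.2 (Fact.out : p.Prime).pos) (by rw [e, map_zero]))), y1,
      fun x => m (skew c k.ch (bc x fun g _ j hj => by simp only [cup, y2, d2 j hj]))⟩
  obtain ⟨u, hu⟩ := h.un o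
  obtain ⟨K, _, _, j, hz, rfl⟩ := h.fld
  obtain ⟨M, _, _, jM, w, e, -, hA, he, H⟩ := quad j hz o (v := blw j o) rfl k
  obtain ⟨π, p0, p1⟩ := ex_unif w
  obtain ⟨n, n0, h1, t⟩ := H π p0
  refine ⟨u, jM π, hu.1, (map_ne_zero jM).2 p0, fun g m => (hA ▸ m : g ∈ GK jM ⊓ dec P).1 π,
    fun m => r fun g a => he.1 ?_ g a.1⟩
  obtain ⟨x, hx⟩ := uns1 j hz o (v := blw j o) rfl hu.1
    (fun g a i => hu.2.1 g ⟨a, inP_le_dec i⟩ i) hu.2.2 n0 (t ▸ m)
  rw [p1, hx, mul_left_comm] at h1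
  exact_mod_cast Int.eq_one_of_mul_eq_one_right (Int.natCast_nonneg e)
    (mul_left_cancel₀ (Int.natCast_ne_zero.2 (Fact.out : p.Prime).ne_zero) h1)

end Dm

open Dm

variable {p : ℕ} [Fact p.Prime]

open P011.ArP P022K.GW Polynomial in
/-- **the local norm index** -/
theorem nil (h : p ≠ 2) : NIL p := fun H l P η β γ o hz hP a b c m => by
  obtain ⟨K, _, _, j, rfl⟩ := ex_fld o
  obtain ⟨ζ, hζ⟩ := fixed j (x := zt p) fun g => mem_Gz'.1 (hz g.2)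
  let M : P011.ArP.Mu p K := ⟨ζ, (hζ ▸ zt_prim p).of_map_of_injective j.injective, Fact.out, h⟩
  have k3 := fun x : Kˣ => kum3 p K M j l P (blw j hP) hP rfl x (ka p (j x))
    ⟨rt p (j x), rt_pow _ _, fun g hg => by rw [show j M.ζ = zt p from hζ]; exact ka_spec (hg x)⟩
  have hA : GK j ⊓ dec P ≤ Gz p := inf_le_left.trans hz
  have u0 : ∀ x : Kˣ, j x ≠ 0 := fun x => (map_ne_zero j).2 x.ne_zero
  obtain ⟨x, x0, hx⟩ := glob j hz hP a
  obtain ⟨y, y0, hy⟩ := glob j hz hP b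
  obtain ⟨w, w0, hw⟩ := glob j hz hP c
  obtain ⟨σ, s1, s2⟩ : ∃ σ ∈ GK j ⊓ dec P, η σ = 1 := by
    by_cases e : ∀ g ∈ GK j ⊓ dec P, η g = 0
    · exact absurd (b2_of_zero fun g hg _ _ => by simp [cup, e g hg]) m
    push Not at e
    obtain ⟨s, hs, s0⟩ := e
    exact ex_one a hs s0
  let N : Subgroup Kˣ :=
    { carrier := {t | cup η (ka p (j t)) ∈ B p (GK j ⊓ dec P)}
      mul_mem' := fun {s t} hs ht => bc (add_mem hs ht) fun g _ r hr => by
        simp only [cup, Pi.add_apply, Units.val_mul, map_mul]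
        rw [ka_mul (u0 s) (u0 t) (hA hr) (hr.1 s) (hr.1 t), mul_add]
      one_mem' := b2_of_zero fun g _ r hr => by simp [cup, ka_one (hA hr)]
      inv_mem' := fun {s} hs => bc (neg_mem hs) fun g _ r hr => by
        simp only [cup, Pi.neg_apply, Units.val_inv_eq_inv_val, map_inv₀]
        rw [ka_inv (u0 s) (hA hr) (hr.1 s), mul_neg] }
  have l1 : NF M (Units.mk0 x x0) ≤ N := by
    rintro t ⟨f, hf⟩
    letI := j.toAlgebra
    have e := M.aeval_nf f (x := rt p (j x)) (a := x) (rt_pow _ _)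
    have ac : ∀ g ∈ GK j, g (aeval (rt p (j x)) f) = aeval (g (rt p (j x))) f := fun g hg => by
      rw [aeval_def, aeval_def]
      refine (hom_eval₂ f _ (g : Qb →+* Qb) _).trans ?_
      congr 1
      exact RingHom.ext hg
    refine (nrm p _ η σ (j t) hA a s1 s2 (u0 t) fun g hg => hg.1 t).2
      ⟨aeval (rt p (j x)) f, fun g hg g0 => ?_, ?_⟩
    · rw [ac g hg.1, ka_spec (hg.1 x), ← hx g hg, g0, ZMod.val_zero, pow_zero, one_mul]
    · rw [hf]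
      refine Eq.trans (Finset.prod_congr rfl fun i _ => ?_) e.symm
      have m := pow_mem s1 i
      rw [ac _ m.1, ka_spec (m.1 x), ← hx _ m, a.pow s1, s2, mul_one, pw_nat, ← hζ, ← map_pow]
      rfl
  have l2 : LS M ((blw j hP).valuation K) ≤ N := fun t ht =>
    b2_of_zero fun g _ r hr => by simp [cup, (k3 t).2 ht r hr]
  have i1 := local_index M (blw j hP) (Units.mk0 x x0) fun e =>
    one_ne_zero (s2.symm.trans ((hx σ s1).trans ((k3 _).2 e σ s1)))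
  have y1 : Units.mk0 y y0 ∉ N := fun e => m (bc e fun g _ r hr => by simp [cup, hy r hr])
  have i2 : Nat.card (Kˣ ⧸ N) = p :=
    ((Nat.dvd_prime Fact.out).1 (i1 ▸ Subgroup.index_dvd_of_le (sup_le l1 l2))).resolve_left
      fun e => y1 (Subgroup.index_eq_one.1 e ▸ Subgroup.mem_top _)
  obtain ⟨n, hn⟩ := mem_powers_of_prime_card (g' := ((Units.mk0 w w0 : Kˣ) : Kˣ ⧸ N)) i2
    (mt (QuotientGroup.eq_one_iff _).1 y1)
  have e : (Units.mk0 y y0 ^ n)⁻¹ * Units.mk0 w w0 ∈ N := QuotientGroup.eq.1 hn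
  refine ⟨n, bc e fun g _ r hr => ?_⟩
  have j1 := (map_ne_zero j).2 y0
  simp only [cup, Pi.sub_apply, Pi.smul_apply, smul_eq_mul, Units.val_mul, Units.val_inv_eq_inv_val,
    Units.val_pow_eq_pow_val, Units.val_mk0, map_mul, map_inv₀, map_pow]
  have f : r (j y ^ n) = j y ^ n := by rw [map_pow, hr.1 y]
  rw [ka_mul (inv_ne_zero (pow_ne_zero _ j1)) ((map_ne_zero j).2 w0) (hA hr) (by rw [map_inv₀, f])
    (hr.1 w), ka_inv (pow_ne_zero _ j1) (hA hr) f, ka_pow j1 (hA hr) (hr.1 y), hy r hr, hw r hr]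
  ring

/-- **the unramified symbol** -/
theorem uns (hN : NIL p) : UNS p := fun K _ _ j l P v u a hz h hv hu hI hs a0 => by
  refine ⟨uns1 j hz h hv hu hI hs a0, fun d => ?_⟩
  obtain ⟨π, p0, p1⟩ := ex_unif v
  obtain ⟨x, e⟩ := hN _ l P u _ _ (isOpen_GK j) hz h hu (kch j hz p0 inf_le_left)
    (kch j hz a0 inf_le_left) fun x => not_one (p := p) (p1 ▸ uns1 j hz h hv hu hI hs p0 x)
  have q0 := pow_ne_zero x.val p0
  have := uns1 j hz h hv hu hI hs (div_ne_zero a0 q0) (bc e fun g _ r hr => by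
    simp only [cup, Pi.sub_apply, Pi.smul_apply, smul_eq_mul]
    rw [map_div₀, ka_div ((map_ne_zero j).2 a0) ((map_ne_zero j).2 q0) (hz hr.1) (hr.1 a) (hr.1 _),
      map_pow, ka_pow ((map_ne_zero j).2 p0) (hz hr.1) (hr.1 π), ZMod.natCast_zmod_val]
    ring)
  rw [ord_div v a0 q0, ord_pow, p1, mul_one, dvd_sub_right d, Int.natCast_dvd_natCast,
    ← ZMod.natCast_eq_zero_iff, ZMod.natCast_zmod_val] at this
  simpa [this] using e

/-- **every local class is an unramified symbol** -/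
theorem dim1 (hN : NIL p) : DIM1 p := fun H l P u z hH hG o hu hI hs hz => by
  have h : Lo p P (H ⊓ dec P) := ⟨H, hH, hG, rfl⟩
  have c0 : ∀ A : Subgroup GQ, Ch A (0 : GQ → ZMod p) := fun A =>
    ⟨fun _ _ _ _ => (add_zero _).symm, ⊤, Lv.top _, fun _ _ _ => rfl⟩
  obtain ⟨a, b, ha, hb, e⟩ := tow p GQ _ z
    (fun A => ∃ a b, Ch A a ∧ Ch A b ∧ z - cup a b ∈ B p A) hz
    (fun A _ _ m => ⟨0, 0, c0 A, c0 A, bc m fun _ _ _ _ => by simp [cup]⟩)
    (fun A A' η l1 l2 c k ⟨a, b, ha, hb, e⟩ => by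
      by_cases s : ∀ g ∈ A, η g = 0
      · obtain rfl : A' = A := Subgroup.ext fun g => (k g).trans (and_iff_left_of_imp (s g))
        exact ⟨a, b, ha, hb, e⟩
      push Not at s
      obtain ⟨s, hs, s0⟩ := s
      obtain ⟨σ, s1, s2⟩ := ex_one c hs s0
      have k' : Kr A A' η σ := ⟨c, k, s1, s2⟩
      have z1 := Z2.mono hz subset_rfl l1
      have hA := l1.trans h.gz
      obtain ⟨a', y, c', y0, y1, m⟩ := (h.sub l1 (l2.up k'.le)).key o k'
      obtain ⟨x, x0, x1, x2⟩ := k'.gys hA z1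
        (dies k' hA ((h.sub (k'.le.trans l1) l2).n2 hN o) z1 c' y0 y1 m ha hb e)
      exact ⟨η, _, c, ka_ch hA x0 x1, x2⟩)
    fun A A' l0 l1 l2 od ⟨a, b, ha, hb, e⟩ => by
      obtain ⟨u, u1, u2, σ, s, s0⟩ := (h.sub l1 (l2.up l0)).un o
      obtain ⟨g, g1, -, g2⟩ := ne_of_odd u1 s s0 od
      obtain ⟨β, c, m⟩ := (h.sub (l0.trans l1) l2).sym hN o
        ⟨u1.mono l0, fun g m => u2 g (l0 m), g, g1, g2⟩ ha hb
      obtain ⟨R, t⟩ := ex_tv (Γ := A) (U := A') fun x => od (x ▸ dvd_zero p)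
      obtain ⟨v, v1, v2, -⟩ := trc GQ _ A A' R z u β t (l2.mono subset_rfl l1)
        (Z2.mono hz subset_rfl l1) u1 (c.mono inf_le_right)
        (B2.mono (btr e m) subset_rfl inf_le_right)
      have v3 := Submodule.smul_mem _ (R.card : ZMod p)⁻¹ v2
      rw [smul_sub, inv_smul_smul₀ (t.card ▸ mt (ZMod.natCast_eq_zero_iff _ p).1 od),
        ← cup_smul] at v3
      exact ⟨u, _, u1, v1.smul _, v3⟩
  obtain ⟨β, c, m⟩ := h.sym hN o ⟨hu, fun g m => hI g m.1, hs⟩ ha hb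
  exact ⟨β, c, btr e m⟩

/-- **the local second cohomology of a character** -/
theorem dimt (hN : NIL p) (hD : DIM1 p) : DIMT p := fun k _ _ _ Γ l P θ hΓ o r => by
  classical
  have mu := r.mu
  let U : Subgroup GQ :=
    { carrier := {g | g ∈ Γ ∧ θ g = 1 ∧ g ∈ Gz p}
      mul_mem' := fun a b => ⟨mul_mem a.1 b.1, by rw [mu.2 _ a.1 _ b.1, a.2.1, b.2.1, mul_one],
        mul_mem a.2.2 b.2.2⟩
      one_mem' := ⟨one_mem _, mu.1, one_mem _⟩
      inv_mem' := fun a => ⟨inv_mem a.1, by simpa [a.2.1] using mu.inv a.1, inv_mem a.2.2⟩ }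
  have lU : Le ∅ Γ U := by
    obtain ⟨W, hW, e⟩ := r.lv
    exact ⟨W ⊓ Gz p, hW.inf lv_Gz, fun w a b => ⟨a, by
      simpa [ch_apply] using LinearMap.congr_fun (e w a b.1) 1, b.2⟩⟩
  have oU := lU.isOpen hΓ
  have zU : U ≤ Gz p := fun g m => m.2.2
  have nU : ∀ g ∈ Γ, ∀ x ∈ U, g * x * g⁻¹ ∈ U := fun g hg x m =>
    ⟨mul_mem (mul_mem hg m.1) (inv_mem hg), by
      rw [mu.2 _ (mul_mem hg m.1) _ (inv_mem hg), mu.2 _ hg _ m.1, m.2.1, mul_one, mu.inv hg],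
      Gz_normal.conj_mem x m.2.2 g⟩
  have eU : Γ ⊓ dec P ⊓ U = U ⊓ dec P :=
    Subgroup.ext fun g => ⟨fun m => ⟨m.2, m.1.2⟩, fun m => ⟨⟨m.1.1, m.2⟩, m.1⟩⟩
  have l1 : U ⊓ dec P ≤ Γ ⊓ dec P := fun g m => ⟨m.1.1, m.2⟩
  have e1 : ∀ g ∈ U ⊓ dec P, tr GQ k g = ch θ g := fun g m => by rw [ch, m.1.2.1, one_smul]; rfl
  have r1 : Rp ∅ (Γ ⊓ dec P) (ch θ) := r.mono subset_rfl inf_le_left
  have od : ((U.relIndex (Γ ⊓ dec P) : ℕ) : k) ≠ 0 := by
    let f : (Γ ⊓ dec P : Subgroup GQ) →* (k × k)ˣ := MonoidHom.toHomUnits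
      { toFun := fun g => (θ g, om p k g), map_one' := Prod.ext mu.1 (om_one k)
        map_mul' := fun a b => Prod.ext (mu.2 _ a.2.1 _ b.2.1) (om_mul k _ _) }
    have : U.subgroupOf (Γ ⊓ dec P) = f.ker := Subgroup.ext fun g =>
      ⟨fun m => Units.ext (Prod.ext m.2.1 ((om_eq_one k).2 m.2.2)), fun m =>
        ⟨g.2.1, congrArg (fun x => x.val.1) m, (om_eq_one k).1 (congrArg (fun x => x.val.2) m)⟩⟩
    rw [Subgroup.relIndex, this, Subgroup.index_ker]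
    obtain ⟨c, hc⟩ := Subgroup.card_subgroup_dvd_card f.range
    haveI := Fintype.ofFinite k
    intro h0
    have h1 := congrArg (Nat.cast : ℕ → k) hc
    rw [Nat.cast_mul, h0, zero_mul, Nat.card_congr MulEquiv.prodUnits.toEquiv, Nat.card_prod,
      Nat.card_units, Nat.card_eq_fintype_card, Nat.cast_mul,
      Nat.cast_sub Fintype.card_pos, FiniteField.cast_card_eq_zero] at h1
    simpa using h1
  have inj : ∀ z ∈ Z2 ∅ (Γ ⊓ dec P) (ch θ), z ∈ B2 ∅ (U ⊓ dec P) (tr GQ k) →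
      z ∈ B2 ∅ (Γ ⊓ dec P) (ch θ) := fun z hz m =>
    tr2 GQ k k ∅ _ U _ z r1 (pr0 GQ k k ∅ _ U _ r1 od) (lU.mono subset_rfl inf_le_left) hz
      (eU ▸ B2.congr m (fun _ _ _ _ => rfl) fun g a => (e1 g a).symm)
  have res : ∀ z ∈ Z2 ∅ (Γ ⊓ dec P) (ch θ), z ∈ Z2 ∅ (U ⊓ dec P) (tr GQ k) := fun z hz =>
    Z2.congr (Z2.mono hz subset_rfl l1) (fun _ _ _ _ => rfl) e1
  obtain ⟨u, u1, u2, σ, s, s1⟩ := uch p Γ l P hΓ o
  obtain ⟨τ, t1, t2, t3⟩ := ne_of_odd (A' := U) u1 s (s1 ▸ one_ne_zero)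
    fun e => od ((CharP.cast_eq_zero_iff k p _).2 e)
  obtain ⟨K, _, _, j, rfl⟩ := ex_fld hΓ
  obtain ⟨M, _, _, _, _, jM, ρ, D, hM, -⟩ := exists_fld j U oU (fun g m => m.1) nU
  obtain ⟨π, p0, p1⟩ := ex_unif (blw jM o)
  have cu : Ch (U ⊓ dec P) u := u1.mono l1
  have cβ : Ch (U ⊓ dec P) (ka p (jM π)) := kch jM (hM ▸ zU) p0 (hM ▸ inf_le_left)
  have us : ∀ a : M, a ≠ 0 → (cup u (ka p (jM a)) ∈ B p (U ⊓ dec P) ↔ (p : ℤ) ∣ ordv (blw jM o) a) :=
    fun a a0 => hM ▸ uns hN M jM l P _ u a (hM ▸ zU) o rfl (hM ▸ cu)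
      (fun g a i => u2 g (hM ▸ a : g ∈ U).1 i) ⟨τ, ⟨hM ▸ t1, t2.2⟩, t3⟩ a0
  have nβ : cup u (ka p (jM π)) ∉ B p (U ⊓ dec P) := fun e => not_one (p := p) (p1 ▸ (us π p0).1 e)
  have H : ∀ z ∈ Z2 ∅ (U ⊓ dec P) (tr GQ (ZMod p)),
      ∃ a : ZMod p, z - a • cup u (ka p (jM π)) ∈ B p (U ⊓ dec P) := fun z hz => by
    obtain ⟨γ, c, m⟩ := hD U l P u z oU zU o cu (fun g a i => u2 g a.1 i) ⟨τ, ⟨t1, t2.2⟩, t3⟩ hz
    exact (hN U l P u _ γ oU zU o cu cβ c nβ).imp fun a x => btr m x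
  let f := ZMod.castHom (dvd_refl p) k
  refine ⟨(rq_le LinearMap.id res inj).trans ?_, fun ⟨g, hg, g1⟩ => rq_eq_zero.2 fun z hz =>
    inj z hz ?_⟩
  · refine (Submodule.rank_mono (t := Submodule.span k {(B2 ∅ (U ⊓ dec P) (tr GQ k)).mkQ
      fun x y => f (cup u (ka p (jM π)) x y)}) ?_).trans ((rank_span_le _).trans (by simp))
    rintro _ ⟨z, hz, rfl⟩
    obtain ⟨c, hc⟩ := line_up H hz
    exact Submodule.mem_span_singleton.2 ⟨c, by
      rw [← map_smul]; exact ((Submodule.Quotient.eq _).2 hc).symm⟩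
  have n : ∀ x ∈ U ⊓ dec P, g * x * g⁻¹ ∈ U ⊓ dec P := fun x m =>
    ⟨nU g hg.1 x m.1, (dec P).mul_mem ((dec P).mul_mem hg.2 m.2) ((dec P).inv_mem hg.2)⟩
  obtain ⟨c, hc⟩ := line_up H (res z hz)
  have q0 : ρ ⟨g, hg.1⟩⁻¹ π ≠ 0 := (map_ne_zero _).2 p0
  have ha : (fun x y => cup u (ka p (jM π)) (g * x * g⁻¹) (g * y * g⁻¹)) -
      oz p g • cup u (ka p (jM π)) ∈ B p (U ⊓ dec P) := by
    refine bc (Submodule.smul_mem _ (oz p g) ((us _ (div_ne_zero q0 p0)).2 ?_)) fun x a y b => ?_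
    · rw [ord_div _ q0 p0, ordv, val_act D o _ ((dec P).inv_mem hg.2), ← ordv, sub_self]
      exact dvd_zero _
    · have fy : ∀ t, y (jM t) = jM t := (hM ▸ b.1 : y ∈ GK jM)
      have e := ka_conj ((map_ne_zero jM).2 q0) g (zU b.1) (fy _)
      rw [← D.act, ← AlgEquiv.mul_apply, show g * (⟨g, hg.1⟩⁻¹ : GK j).1 = 1 from mul_inv_cancel g,
        AlgEquiv.one_apply] at e
      simp only [cup, Pi.sub_apply, Pi.smul_apply, smul_eq_mul]
      rw [e, map_div₀, ka_div ((map_ne_zero jM).2 q0) ((map_ne_zero jM).2 p0) (zU b.1) (fy _) (fy _),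
        u1.1 _ (mul_mem hg (l1 a)) _ (inv_mem hg), u1.1 _ hg _ (l1 a), u1.inv hg, D.act]
      ring
  have h1 : _ ∈ B2 ∅ (U ⊓ dec P) (tr GQ k) := B2.congr
    (B2.mono (cj0 GQ k k ∅ _ _ z g r1 hz hg) subset_rfl l1) (fun _ _ _ _ => rfl) e1
  have h2 := b2_cj n hc
  have h3 := B2.amap (ρ' := tr GQ k) ha f.toAddMonoidHom fun _ _ _ => rfl
  have t : 1 - θ g⁻¹ * f (oz p g) ≠ 0 := fun e => g1 (by
    have := mu.inv hg.1
    show θ g = f (oz p g)
    linear_combination θ g * e + f (oz p g) * this)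
  have h4 := sub_mem (add_mem (add_mem h1 (Submodule.smul_mem _ (θ g⁻¹) h2))
    (Submodule.smul_mem _ (θ g⁻¹ * c) h3)) (Submodule.smul_mem _ (θ g⁻¹ * f (oz p g)) hc)
  refine B2.congr (Submodule.smul_mem _ (1 - θ g⁻¹ * f (oz p g))⁻¹ h4) (fun x _ y _ => ?_)
    fun _ _ => rfl
  simp only [Pi.sub_apply, Pi.add_apply, Pi.smul_apply, smul_eq_mul, ch_apply,
    RingHom.toAddMonoidHom_eq_coe, AddMonoidHom.coe_coe, map_sub, map_mul]
  rw [eq_inv_mul_iff_mul_eq₀ t]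
  ring

end Vale.Agent.P014U.G2
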