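import Vale.Agent.P022K.G2.Kum
import Vale.Agent.P022K.G2.Tr2

/-!
# P014U, block G2: symbols and norms for every prime (rows `NRM`, `GYS`; helper96)
-/

set_option linter.all false

noncomputable section

namespace Vale.Agent.P014U.G2

open NumberField Module
open Vale.Agent.P022 Vale.Agent.P022.C Vale.Agent.P022K.G2

namespace Gy

variable {p : ℕ} [Fact p.Prime]

section grp

variable {G : Type} [Group G] [TopologicalSpace G] {A A' : Subgroup G} {η : G → ZMod p} {σ : G}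

/-- `A'` is the kernel of `η`, and `σ` generates the quotient -/
structure Kr (A A' : Subgroup G) (η : G → ZMod p) (σ : G) : Prop where
  ch : Ch A η
  mem : ∀ g, g ∈ A' ↔ g ∈ A ∧ η g = 0
  sm : σ ∈ A
  s1 : η σ = 1

theorem ex_one (c : Ch A η) {s : G} (hs : s ∈ A) (h : η s ≠ 0) : ∃ σ ∈ A, η σ = 1 :=
  ⟨s ^ (η s)⁻¹.val, A.pow_mem hs _, by rw [c.pow hs, ZMod.natCast_zmod_val, inv_mul_cancel₀ h]⟩

theorem Kr.le (k : Kr A A' η σ) : A' ≤ A := fun g hg => ((k.mem g).1 hg).1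

theorem Kr.lv (k : Kr A A' η σ) : Le ∅ A A' :=
  k.ch.2.imp fun _ h => ⟨h.1, fun w hw m => (k.mem w).2 ⟨hw, h.2 w hw m⟩⟩

theorem Kr.cj (k : Kr A A' η σ) {x g : G} (hx : x ∈ A) (hg : g ∈ A') : x * g * x⁻¹ ∈ A' :=
  (k.mem _).2 ⟨mul_mem (mul_mem hx (k.le hg)) (inv_mem hx), by
    rw [k.ch.1 _ (mul_mem hx (k.le hg)) _ (inv_mem hx), k.ch.1 _ hx _ (k.le hg), k.ch.inv hx,
      ((k.mem g).1 hg).2]; ring⟩

theorem Kr.pw (k : Kr A A' η σ) (n : ℕ) : η (σ ^ n) = n := by rw [k.ch.pow k.sm, k.s1, mul_one]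

theorem Kr.pp (k : Kr A A' η σ) : σ ^ p ∈ A' :=
  (k.mem _).2 ⟨pow_mem k.sm p, by rw [k.pw, ZMod.natCast_self]⟩

theorem Kr.dv (k : Kr A A' η σ) {g h : G} (hg : g ∈ A) (hh : h ∈ A) : g⁻¹ * h ∈ A' ↔ η g = η h := by
  rw [k.mem, k.ch.1 _ (inv_mem hg) _ hh, k.ch.inv hg, neg_add_eq_zero,
    and_iff_right (mul_mem (inv_mem hg) hh)]

theorem Kr.inj (k : Kr A A' η σ) : ∀ i ∈ Finset.range p, ∀ j ∈ Finset.range p,
    (σ ^ i)⁻¹ * σ ^ j ∈ A' → i = j := fun i hi j hj m => by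
  rw [k.dv (pow_mem k.sm _) (pow_mem k.sm _), k.pw, k.pw] at m
  have := congrArg ZMod.val m
  rwa [ZMod.val_cast_of_lt (Finset.mem_range.1 hi), ZMod.val_cast_of_lt (Finset.mem_range.1 hj)]
    at this

theorem Kr.ex (k : Kr A A' η σ) : ∀ g ∈ A, ∃ i ∈ Finset.range p, (σ ^ i)⁻¹ * g ∈ A' :=
  fun g hg => ⟨(η g).val, Finset.mem_range.2 (ZMod.val_lt _), by
    rw [k.dv (pow_mem k.sm _) hg, k.pw, ZMod.natCast_zmod_val]⟩

/-- the transversal of powers -/
theorem Kr.tv (k : Kr A A' η σ) : ∃ R : Finset G, Tv A A' R ∧ R.card = p ∧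
    ∀ F : G → Qb, ∏ r ∈ R, F r = ∏ i ∈ Finset.range p, F (σ ^ i) := by
  classical
  have h : Set.InjOn (fun i => σ ^ i) (Finset.range p : Set ℕ) := fun i hi j hj e =>
    k.inj i hi j hj (by rw [show σ ^ i = σ ^ j from e, inv_mul_cancel]; exact one_mem _)
  have t := tv_image (Finset.range p) (fun i => σ ^ i) (fun i _ => pow_mem k.sm i) k.ex k.inj
  refine ⟨_, t, ?_, fun F => ?_⟩
  · exact (@Finset.card_image_of_injOn _ _ _ _ (Classical.propDecidable <| · = ·) h).trans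
      (Finset.card_range p)
  · exact @Finset.prod_image _ _ _ _ _ (Classical.propDecidable <| · = ·) _ _ h

theorem prod_mul {U : Subgroup G} {R : Finset G} (h : Tv A U R) {g : G} (hg : g ∈ A) (F : G → Qb)
    (hF : ∀ y ∈ A, ∀ u ∈ A, u ∈ U → F (y * u) = F y) : ∏ r ∈ R, F (g * r) = ∏ r ∈ R, F r :=
  h.sum_mul (M := Additive Qb) hg F hF

end grp

/-- powers of the chosen root of unity -/
def E (a : ZMod p) : Qb := zt p ^ a.val

theorem E_add (a b : ZMod p) : E (a + b) = E a * E b := pw_add a b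

theorem E_zero : E (0 : ZMod p) = 1 := by simp [E]

theorem E_ne (a : ZMod p) : E a ≠ 0 := pow_ne_zero _ zt_ne

theorem E_fix {g : GQ} (hg : g ∈ Gz p) (a : ZMod p) : g (E a) = E a := by
  rw [E, map_pow, mem_Gz'.1 hg]

theorem E_pow (a : ZMod p) (n : ℕ) : E a ^ n = E ((n : ZMod p) * a) := by
  induction n with
  | zero => simp [E_zero]
  | succ n ih => rw [pow_succ, ih, ← E_add]; push_cast; rw [add_one_mul]

theorem E_sum {ι : Type} (s : Finset ι) (a : ι → ZMod p) : E (∑ i ∈ s, a i) = ∏ i ∈ s, E (a i) := by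
  classical
  induction s using Finset.induction_on with
  | empty => simp [E_zero]
  | insert x s hx ih => rw [Finset.sum_insert hx, Finset.prod_insert hx, E_add, ih]

theorem E_inj {a b : ZMod p} {x : Qb} (hx : x ≠ 0) (h : E a * x = E b * x) : a = b :=
  pw_inj (mul_right_cancel₀ hx h)

theorem E_ka {b : Qb} {g : GQ} (hg : g b = b) : g (rt p b) = E (ka p b g) * rt p b := ka_spec hg

variable {A A' W : Subgroup GQ} {η : GQ → ZMod p} {σ : GQ}

/-- theorem 90 for any subgroup -/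
theorem h90 (hW : Lv ∅ W) {f : GQ → Qb} (f0 : ∀ g ∈ A, f g ≠ 0)
    (hf : ∀ g ∈ A, ∀ h ∈ A, f (g * h) = f g * g (f h))
    (h1 : ∀ g ∈ A, ∀ w ∈ A, w ∈ W → f (g * w) = f g) :
    ∃ δ : Qb, δ ≠ 0 ∧ ∀ g ∈ A, f g * g δ = δ := by
  obtain ⟨R, tv⟩ := ex_tv (Γ := A) (U := W) (Le.relIndex (I := ∅) ⟨W, hW, fun _ _ m => m⟩)
  let K := IntermediateField.fixedField W
  let t : R → (K →* Qb) := fun a => ((a.1 : GQ) : Qb →* Qb).comp (algebraMap K Qb : K →* Qb)
  have ti : Function.Injective t := fun a b e => by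
    by_contra ne
    obtain ⟨θ, t1, t2⟩ := sep W (W.isClosed_of_isOpen hW.opn) (s := a.1⁻¹ * b.1) fun k =>
      ne (Subtype.ext (tv.un _ a.2 _ b.2 k))
    have e1 : a.1 θ = b.1 θ :=
      DFunLike.congr_fun e ⟨θ, (IntermediateField.mem_fixedField_iff _ _).2 t1⟩
    apply t2
    rw [AlgEquiv.mul_apply, ← e1, ← AlgEquiv.mul_apply, inv_mul_cancel]
    rfl
  have li := Fintype.linearIndependent_iff.1 ((linearIndependent_monoidHom K Qb).comp t ti)
    fun a => f a.1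
  obtain ⟨θ, hθ⟩ : ∃ θ : K, ∑ r ∈ R, f r * r θ ≠ 0 := by
    by_contra! c
    obtain ⟨r, hr, -⟩ := tv.ex 1 (one_mem _)
    refine f0 r (tv.mem r hr) (li (funext fun θ => ?_) ⟨r, hr⟩)
    rw [Finset.sum_apply]
    exact (Finset.sum_coe_sort R fun r => f r * r θ).trans (c θ)
  refine ⟨_, hθ, fun g hg => ?_⟩
  rw [map_sum, Finset.mul_sum, ← tv.sum_mul hg (fun r => f r * r θ) fun y hy u hu m => by
    rw [h1 y hy u hu m, AlgEquiv.mul_apply, (IntermediateField.mem_fixedField_iff _ _).1 θ.2 u m]]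
  refine Finset.sum_congr rfl fun r hr => ?_
  rw [hf g hg r (tv.mem r hr), map_mul, AlgEquiv.mul_apply, mul_assoc]

/-- a class which dies in the multiplicative group is trivial -/
theorem mu (hA : A ≤ Gz p) (hW : Lv ∅ W) {w : GQ → GQ → ZMod p} {Θ : GQ → Qb}
    (h0 : ∀ g ∈ A, Θ g ≠ 0) (hΘ : ∀ g ∈ A, ∀ h ∈ A, Θ (g * h) = Θ g * g (Θ h) * E (w g h))
    (hl : ∀ g ∈ A, ∀ x ∈ A, x ∈ W → Θ (g * x) = Θ g) : w ∈ B2 ∅ A (tp p) := by
  obtain ⟨δ, d0, hδ⟩ := h90 (A := A) hW (f := fun g => Θ g ^ p) (fun g hg => pow_ne_zero _ (h0 g hg))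
    (fun g hg h hh => by
      rw [hΘ g hg h hh, mul_pow, mul_pow, E_pow, ZMod.natCast_self, zero_mul, E_zero, mul_one,
        map_pow]) fun g hg x hx m => by rw [hl g hg x hx m]
  have e0 := rt_ne (p := p) d0
  have ex : ∀ g ∈ A, ∃ a : ZMod p, Θ g * g (rt p δ) = E a * rt p δ := fun g hg =>
    ex_log (by rw [mul_pow, ← map_pow, rt_pow, hδ g hg])
  choose! c hc using ex
  obtain ⟨V, hV, fx⟩ := ex_lv_fix (rt p δ)
  refine ⟨fun g => -c g, ⟨W ⊓ V, hW.inf hV, fun g hg x hx m => congrArg _ (E_inj e0 ?_)⟩,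
    fun g hg h hh => ?_⟩
  · rw [← hc _ (mul_mem hg hx), ← hc _ hg, hl g hg x hx m.1, AlgEquiv.mul_apply, fx x m.2]
  · have h1 := congrArg g (hc h hh)
    rw [map_mul, map_mul, E_fix (hA hg)] at h1
    have : c (g * h) = w g h + c h + c g := E_inj e0 (by
      rw [← hc _ (mul_mem hg hh), hΘ g hg h hh, AlgEquiv.mul_apply, E_add, E_add]
      linear_combination Θ g * E (w g h) * h1 + E (w g h) * E (c h) * hc g hg)
    rw [d1_apply, tr_apply, this]; ring

variable (p) in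
/-- the norm -/
def Nm (σ : GQ) (y : Qb) : Qb := ∏ i ∈ Finset.range p, (σ ^ i) y

theorem nm_ne {y : Qb} (y0 : y ≠ 0) : Nm p σ y ≠ 0 :=
  Finset.prod_ne_zero_iff.2 fun _ _ => (map_ne_zero _).2 y0

theorem Kr.nm_fix (k : Kr A A' η σ) {y : Qb} (hy : ∀ g ∈ A', g y = y) {g : GQ} (hg : g ∈ A) :
    g (Nm p σ y) = Nm p σ y := by
  obtain ⟨R, tv, -, e⟩ := k.tv
  rw [Nm, ← e fun r => r y, map_prod]
  exact prod_mul tv hg (fun r => r y) fun x _ u _ m => by rw [AlgEquiv.mul_apply, hy u m]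

/-- the projection formula -/
theorem Kr.proj (k : Kr A A' η σ) (hA : A ≤ Gz p) {z : GQ → GQ → ZMod p} {a : GQ → ZMod p}
    (hz : z ∈ Z2 ∅ A (tp p)) (ha : Ch A a) {y : Qb} (y0 : y ≠ 0) (hy : ∀ g ∈ A', g y = y)
    (h : z - cup a (ka p y) ∈ B2 ∅ A' (tp p)) : cup a (ka p (Nm p σ y)) ∈ B2 ∅ A (tp p) := by
  obtain ⟨R, tv, hc, e⟩ := k.tv
  obtain ⟨v, -, w2, w3⟩ := trc GQ (ZMod p) A A' R z a (ka p y) tv k.lv hz ha
    ((ka_ch (k.le.trans hA) y0 hy).mono inf_le_right) (B2.mono h subset_rfl inf_le_right)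
  rw [hc, ZMod.natCast_self, zero_smul, zero_sub, neg_mem_iff] at w2
  refine B2.congr w2 (fun x _ g hg => congrArg (a x * ·) ?_) fun _ _ => rfl
  obtain ⟨t, t1, t2, t3⟩ := tv.rep
  have m := fun r hr => t1 _ (mul_mem hg (tv.mem r hr))
  rw [w3 g hg (fun r => t (g * r)) m]
  refine ka_eq (β := ∏ r ∈ R, r (rt p y)) (nm_ne y0) ?_ (hA hg) ?_
  · rw [Nm, ← e fun r => r y, ← Finset.prod_pow]
    exact Finset.prod_congr rfl fun r _ => by rw [← map_pow, rt_pow]
  · have h1 := prod_mul tv hg (fun x => t x (rt p y)) fun x hx u hu m => by rw [t2 x hx u hu m]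
    rw [Finset.prod_congr rfl fun r hr => congrArg (fun x : GQ => x (rt p y)) (t3 r hr)] at h1
    refine Eq.trans ?_ (congrArg (· * _) (E_sum R _).symm)
    rw [← h1, ← Finset.prod_mul_distrib, h1, map_prod]
    refine Finset.prod_congr rfl fun r hr => ?_
    have h2 := congrArg (t (g * r)) (E_ka (p := p) (hy _ (m r hr).2))
    rwa [← AlgEquiv.mul_apply, mul_inv_cancel_left, map_mul, E_fix (hA (tv.mem _ (m r hr).1))] at h2

/-- if the symbol vanishes, the element is a norm -/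
theorem Kr.exa (k : Kr A A' η σ) (hA : A ≤ Gz p) {b : Qb} (b0 : b ≠ 0) (hb : ∀ g ∈ A, g b = b)
    (h : cup η (ka p b) ∈ B2 ∅ A (tp p)) : ∃ y : Qb, (∀ g ∈ A', g y = y) ∧ Nm p σ y = b := by
  obtain ⟨c, ⟨W, hW, e⟩, hc⟩ := h
  simp only [d1_apply, tr_apply, cup] at hc
  have c1 : c 1 = 0 := by
    have := hc 1 (one_mem _) 1 (one_mem _)
    rw [k.ch.one, mul_one] at this
    linear_combination -this
  obtain ⟨γ, g0, hγ⟩ := surj (k.le.trans hA) (χ := c) ⟨fun g hg j hj => by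
      have := hc g (k.le hg) j (k.le hj)
      rw [((k.mem g).1 hg).2] at this
      linear_combination this, W, hW, fun w hw m => by
      rw [← one_mul w, e 1 (one_mem _) w (k.le hw) m, c1]⟩
  let Ψ : GQ → ℕ → Qb := fun g m => E (c g) * g (rt p b) ^ m * γ / g γ
  have P0 : ∀ h ∈ A', Ψ h 0 = 1 := fun h hh => by
    show E (c h) * _ ^ 0 * γ / h γ = 1
    rw [pow_zero, mul_one, hγ h hh]
    exact div_self (mul_ne_zero (E_ne _) g0)
  have PM : ∀ g ∈ A, ∀ h ∈ A, ∀ m n : ℕ, η g = m → Ψ (g * h) (m + n) = Ψ g m * g (Ψ h n) := by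
    intro g hg h hh m n hm
    have h1 := congrArg E (show c (g * h) + m * ka p b h = c g + c h by
      linear_combination hc g hg h hh - ka p b h * hm)
    have h2 := congrArg (fun x => g x ^ m) (E_ka (p := p) (hb h hh))
    simp only [map_mul, E_fix (hA hg), mul_pow, E_pow] at h2
    have a1 : g γ ≠ 0 := (map_ne_zero g).2 g0
    have a2 : g (h γ) ≠ 0 := (map_ne_zero g).2 ((map_ne_zero h).2 g0)
    simp only [Ψ, AlgEquiv.mul_apply, map_div₀, map_mul, map_pow, E_fix (hA hg), pow_add, h2]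
    rw [E_add, E_add] at h1
    field_simp
    linear_combination g (rt p b) ^ m * g (h (rt p b)) ^ n * h1
  refine ⟨Ψ σ 1, fun h hh => ?_, ?_⟩
  · have m := k.cj (inv_mem k.sm) hh
    rw [inv_inv] at m
    have h1 := PM h (k.le hh) σ k.sm 0 1 (by rw [((k.mem h).1 hh).2, Nat.cast_zero])
    have h2 := PM σ k.sm _ (k.le m) 1 0 (by rw [k.s1, Nat.cast_one])
    rw [P0 _ m, map_one, mul_one, ← mul_assoc, mul_inv_cancel_left] at h2
    rw [P0 _ hh, one_mul] at h1
    exact h1.symm.trans h2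
  · have H : ∀ n, ∏ i ∈ Finset.range n, (σ ^ i) (Ψ σ 1) = Ψ (σ ^ n) n := fun n => by
      induction n with
      | zero => rw [Finset.prod_range_zero, pow_zero, P0 1 (one_mem _)]
      | succ n ih =>
        rw [Finset.prod_range_succ, ih, pow_succ, PM _ (pow_mem k.sm n) σ k.sm n 1 (k.pw n)]
    rw [Nm, H]
    show E (c _) * _ ^ p * γ / _ = b
    rw [← map_pow, rt_pow, hb _ (pow_mem k.sm p), hγ _ k.pp]
    refine (div_eq_iff (mul_ne_zero (E_ne _) g0)).2 ?_
    ring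

/-- the powers of the lift of the generator -/
def Ph (z : GQ → GQ → ZMod p) (e : GQ → ZMod p) (σ : GQ) (y : Qb) : ℕ → GQ → Qb
  | 0, g => E (e g)
  | n + 1, g => Ph z e σ y n (g * σ⁻¹) * g y * E (z (g * σ⁻¹) σ)

theorem Kr.gys (k : Kr A A' η σ) (hA : A ≤ Gz p) {z : GQ → GQ → ZMod p}
    (hz : z ∈ Z2 ∅ A (tp p)) (h : z ∈ B2 ∅ A' (tp p)) :
    ∃ b : Qb, b ≠ 0 ∧ (∀ g ∈ A, g b = b) ∧ z - cup η (ka p b) ∈ B2 ∅ A (tp p) := by
  obtain ⟨c, ⟨W, hW, lc⟩, hc⟩ := h
  obtain ⟨zc, V, hV, lz⟩ := hz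
  simp only [tr_apply] at zc
  obtain ⟨e, he, le⟩ : ∃ e : GQ → ZMod p, (∀ g ∈ A', ∀ h ∈ A', e (g * h) = e g + e h + z g h) ∧
      ∀ w ∈ A', w ∈ W → e w = e 1 := ⟨fun g => -c g, fun g hg h hh => by
    rw [hc g hg h hh, d1_apply, tr_apply]; ring, fun w hw m => by
    beta_reduce; rw [← lc 1 (one_mem _) w hw m, one_mul]⟩
  have o := A.one_mem
  have s := k.sm
  have zr : ∀ g ∈ A, z g 1 = z 1 1 := fun g hg => by
    have := zc g hg 1 o 1 o
    simp only [mul_one] at this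
    linear_combination -this
  have zl : ∀ g ∈ A, z 1 g = z 1 1 := fun g hg => by
    have := zc 1 o 1 o g hg
    simp only [one_mul] at this
    linear_combination this
  have e1 : e 1 + z 1 1 = 0 := by
    have := he 1 (one_mem _) 1 (one_mem _)
    rw [mul_one] at this
    linear_combination -this
  let u : GQ → ZMod p := fun h => z σ h + e h - e (σ * h * σ⁻¹) - z (σ * h * σ⁻¹) σ
  have ua : ∀ g ∈ A', ∀ h ∈ A', u (g * h) = u g + u h := fun g hg h hh => by
    have a := k.cj s hg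
    have b := k.cj s hh
    have h1 := zc σ s g (k.le hg) h (k.le hh)
    have h2 := zc _ (k.le a) _ (k.le b) σ s
    have h3 := zc _ (k.le a) σ s h (k.le hh)
    have h4 := he _ a _ b
    have q : σ * g * σ⁻¹ * (σ * h * σ⁻¹) = σ * (g * h) * σ⁻¹ := by group
    rw [q] at h2 h4
    rw [inv_mul_cancel_right] at h2 h3
    simp only [u]
    linear_combination he g hg h hh - h4 + h1 + h2 - h3
  have cu : Ch A' u := ⟨ua, W ⊓ V, hW.inf hV, fun w hw m => by
    have a := k.cj s hw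
    have h1 := (lz σ s 1 o w (k.le hw) m.2).2
    have h2 := (lz 1 o σ s _ (k.le a) (hV.nrm.conj_mem w m.2 σ)).1
    rw [one_mul] at h1 h2
    simp only [u]
    rw [h1, h2, le w hw m.1, le _ a (hW.nrm.conj_mem w m.1 σ), zr σ s, zl σ s]; ring⟩
  obtain ⟨y, y0, hy⟩ := surj (k.le.trans hA) cu
  have P0 : ∀ n g, Ph z e σ y n g ≠ 0 := fun n => by
    induction n with
    | zero => exact fun g => E_ne _
    | succ n ih => exact fun g => mul_ne_zero (mul_ne_zero (ih _) ((map_ne_zero g).2 y0)) (E_ne _)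
  have dn : ∀ g ∈ A, ∀ m : ℕ, η g = (m + 1 : ℕ) → η (g * σ⁻¹) = m := fun g hg m hm => by
    rw [k.ch.1 g hg _ (inv_mem s), k.ch.inv s, k.s1, hm]; push_cast; ring
  have M0 : ∀ m : ℕ, ∀ g ∈ A, ∀ h ∈ A', η g = m →
      Ph z e σ y m (g * h) = Ph z e σ y m g * E (e h) * E (z g h) := fun m => by
    induction m with
    | zero =>
      intro g hg h hh hm
      simp only [Ph]
      rw [he g ((k.mem g).2 ⟨hg, by simpa using hm⟩) h hh, E_add, E_add]
    | succ m ih =>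
      intro g hg h hh hm
      have a := k.cj s hh
      have g1 := mul_mem hg (inv_mem s)
      have q : g * σ⁻¹ * (σ * h * σ⁻¹) = g * h * σ⁻¹ := by group
      have h1 := ih _ g1 _ a (dn g hg m hm)
      have h2 := zc _ g1 σ s h (k.le hh)
      have h3 := zc _ g1 _ (k.le a) σ s
      rw [q] at h1 h3
      rw [inv_mul_cancel_right] at h2 h3
      have h4 := congrArg E (show e (σ * h * σ⁻¹) + z (g * σ⁻¹) (σ * h * σ⁻¹) + u h +
          z (g * h * σ⁻¹) σ = z (g * σ⁻¹) σ + e h + z g h by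
        simp only [u]; linear_combination h2 - h3)
      have h5 : g (h y) = E (u h) * g y := by rw [hy h hh, map_mul]; exact congrArg (· * _) (E_fix (hA hg) _)
      simp only [E_add] at h4
      simp only [Ph]
      rw [h1, AlgEquiv.mul_apply, h5]
      linear_combination Ph z e σ y m (g * σ⁻¹) * g y * h4
  have M : ∀ n m : ℕ, ∀ g ∈ A, ∀ h ∈ A, η g = m → η h = n →
      Ph z e σ y (m + n) (g * h) = Ph z e σ y m g * g (Ph z e σ y n h) * E (z g h) := fun n => by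
    induction n with
    | zero =>
      intro m g hg h hh hm hn
      rw [add_zero, M0 m g hg h ((k.mem h).2 ⟨hh, by simpa using hn⟩) hm, Ph, E_fix (hA hg)]
    | succ n ih =>
      intro m g hg h hh hm hn
      have g1 := mul_mem hh (inv_mem s)
      have h1 := ih m g hg _ g1 hm (dn h hh n hn)
      have h2 := zc g hg _ g1 σ s
      rw [inv_mul_cancel_right] at h2
      have h4 := congrArg E h2
      simp only [E_add] at h4
      rw [← add_assoc]
      simp only [Ph]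
      rw [mul_assoc g h, h1, map_mul, map_mul, E_fix (hA hg), AlgEquiv.mul_apply]
      linear_combination -(Ph z e σ y m g * g (Ph z e σ y n (h * σ⁻¹)) * g (h y)) * h4
  have p1 : η 1 = (p : ℕ) := by rw [k.ch.one, ZMod.natCast_self]
  obtain ⟨b, hb⟩ : ∃ b, b = Ph z e σ y p 1 * E (z 1 1) := ⟨_, rfl⟩
  have b0 : b ≠ 0 := hb ▸ mul_ne_zero (P0 _ _) (E_ne _)
  have B1 : ∀ m : ℕ, ∀ g ∈ A, η g = m → Ph z e σ y (m + p) g = Ph z e σ y m g * g b :=
    fun m g hg hm => by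
      have := M p m g hg 1 o hm p1
      rw [mul_one, zr g hg] at this
      rw [this, hb, map_mul, E_fix (hA hg), mul_assoc]
  have fb : ∀ g ∈ A, g b = b := fun g hg => by
    have hm : η g = ((η g).val : ℕ) := (ZMod.natCast_zmod_val _).symm
    have := M _ p 1 o g hg p1 hm
    rw [one_mul, zl g hg, add_comm, B1 _ g hg hm, AlgEquiv.one_apply] at this
    refine mul_left_cancel₀ (P0 (η g).val g) (this.trans ?_)
    rw [hb]; ring
  have r0 : ∀ g : GQ, g (rt p b) ≠ 0 := fun g => (map_ne_zero g).2 (rt_ne b0)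
  have T : ∀ g ∈ A, ∀ j m : ℕ, η g = m → Ph z e σ y (m + p * j) g / g (rt p b) ^ (m + p * j) =
      Ph z e σ y m g / g (rt p b) ^ m := fun g hg j => by
    induction j with
    | zero => exact fun _ _ => rfl
    | succ j ih =>
      intro m hm
      rw [mul_add_one, ← add_assoc, B1 _ g hg (by rw [hm]; simp), pow_add, ← map_pow g _ p, rt_pow,
        mul_div_mul_right _ _ ((map_ne_zero g).2 b0), ih m hm]
  obtain ⟨U, hU, lη⟩ := k.ch.2
  obtain ⟨X, hX, lb⟩ := ka_lv (p := p) b0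
  have TM : ∀ g ∈ A, ∀ h ∈ A, Ph z e σ y (η (g * h)).val (g * h) / (g * h) (rt p b) ^ (η (g * h)).val =
      Ph z e σ y (η g).val g / g (rt p b) ^ (η g).val *
        g (Ph z e σ y (η h).val h / h (rt p b) ^ (η h).val) * E ((z - cup η (ka p b)) g h) := by
    intro g hg h hh
    have h1 := T _ (mul_mem hg hh) (((η g).val + (η h).val) / p) _ (ZMod.natCast_zmod_val _).symm
    have h2 := congrArg (fun x => g x ^ (η g).val) (E_ka (p := p) (fb h hh))
    simp only [map_mul, E_fix (hA hg), mul_pow, E_pow, ZMod.natCast_zmod_val] at h2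
    have h3 := congrArg E (show z g h = (z - cup η (ka p b)) g h + η g * ka p b h by
      simp [cup])
    rw [E_add] at h3
    rw [← h1, k.ch.1 g hg h hh, ZMod.val_add, Nat.mod_add_div,
      M _ _ g hg h hh (ZMod.natCast_zmod_val _).symm (ZMod.natCast_zmod_val _).symm, pow_add,
      AlgEquiv.mul_apply, h2, h3, map_div₀, map_pow]
    have a1 := r0 g
    have a2 : g (h (rt p b)) ≠ 0 := r0 (g * h)
    have a3 := E_ne (η g * ka p b h)
    field_simp
  refine ⟨b, b0, fb, mu hA (((hW.inf hV).inf hU).inf hX)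
    (Θ := fun g => Ph z e σ y (η g).val g / g (rt p b) ^ (η g).val)
    (fun g _ => div_ne_zero (P0 _ _) (pow_ne_zero _ (r0 g))) TM fun g hg x hx m => ?_⟩
  have x0 := lη x hx m.1.2
  have h1 := (lz g hg 1 o x hx m.1.1.2).2
  rw [one_mul, zr g hg] at h1
  have h2 := congrArg E e1
  rw [E_add, E_zero] at h2
  beta_reduce
  rw [TM g hg x hx, x0, ZMod.val_zero, pow_zero, div_one, Ph, E_fix (hA hg),
    le x ((k.mem x).2 ⟨hx, x0⟩) m.1.1.1, Pi.sub_apply, Pi.sub_apply, cup, (lb x m.2).2, mul_zero,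
    sub_zero, h1, mul_assoc, h2, mul_one]

end Gy

open Gy

/-- **symbols and norms** -/
theorem nrm (p : ℕ) [Fact p.Prime] : NRM p := fun A η σ b hA c s s1 b0 hb => by
  have k : Kr A c.ker η σ := ⟨c, fun _ => Iff.rfl, s, s1⟩
  refine ⟨fun h => (k.exa hA b0 hb h).imp fun y hy => ⟨fun g a e => hy.1 g ⟨a, e⟩, hy.2⟩, ?_⟩
  rintro ⟨y, hy, rfl⟩
  refine k.proj hA (zero_mem _) c (y := y) (fun e => b0 ?_) (fun g m => hy g m.1 m.2)
    (b2_of_zero fun g m h _ => by simp [cup, m.2])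
  exact Finset.prod_eq_zero (Finset.mem_range.2 (Fact.out : p.Prime).pos) (by rw [e, map_zero])

/-- **a class killed by a cyclic extension is a symbol** -/
theorem gys (p : ℕ) [Fact p.Prime] : GYS p := fun A A' η z hA c k hz h => by
  by_cases s : ∀ g ∈ A, η g = 0
  · obtain rfl : A' = A := Subgroup.ext fun g => (k g).trans (and_iff_left_of_imp (s g))
    exact ⟨1, one_ne_zero, fun g _ => map_one g,
      B2.congr h (fun g hg j _ => by simp [cup, s g hg]) fun _ _ => rfl⟩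
  push Not at s
  obtain ⟨s, hs, s0⟩ := s
  obtain ⟨σ, h1, h2⟩ := ex_one c hs s0
  exact Kr.gys ⟨c, k, h1, h2⟩ hA hz h

end Vale.Agent.P014U.G2
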