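import Vale.Agent.P022K.G2.Glo
import Vale.Agent.P022K.G2.Unr
import Vale.Agent.P022K.GW.Has
import Vale.Agent.P022K.GW.Rec

/-!
# P014U, block G2: the global rows `HASSE`, `FIX`, `SHU`, `SHA` for an odd prime (helper68)
-/

set_option linter.all false

noncomputable section

namespace Vale.Agent.P014U.G2

open NumberField Module IsDedekindDomain
open Vale.Agent.P022 Vale.Agent.P022.C Vale.Agent.P022.H916 Vale.Agent.P022.H443
open Vale.Agent.P027M.S (Inert)
open Vale.Agent.P022D.W (dec)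
open Vale.Agent.P022E.GW (Ov Fb)
open Vale.Agent.P022E.GW.Kc (nat_mem ex_above ex_below prime_mem not_ov fin_ord)
open Vale.Agent.P022K Vale.Agent.P022K.G2 Vale.Agent.P022K.G2.Hb
open Vale.Agent.P022K.GW.Rcp (sm sm_mul th fr_eq den dec_zero)
open scoped Pointwise

variable {p : ℕ} [Fact p.Prime]

namespace Gl

theorem fx {H : Subgroup GQ} (hz : H ≤ Gz p) : ∀ h ∈ H, ∀ x : Qb, x ^ p = 1 → h x = x :=
  fun h m x e => by
    obtain ⟨a, rfl⟩ := pw_ex e
    rw [map_pow, mem_Gz'.1 (hz m)]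

variable {L : Type} [Field L] [NumberField L] {j : L →+* Qb}

/-- **reciprocity** for a character of odd prime order, over any number field -/
theorem core (h2 : p ≠ 2) {y : GQ → ZMod p} (hy : P022E.GW.Ch (GK j) y)
    {P : HeightOneSpectrum (𝓞 L) → Ideal (𝓞 Qb)} {fr : HeightOneSpectrum (𝓞 L) → GK j}
    (hfr : ∀ w, FrI j w (P w) (fr w)) : ∃ m : ℕ, m ≠ 0 ∧
    (∀ l : ℕ, l.Prime → l ∣ m → ∃ R, Ov l R ∧ ∃ i ∈ GK j, Inert R i ∧ y i ≠ 0) ∧
    ∀ x : L, x ≠ 0 → (∀ w : HeightOneSpectrum (𝓞 L), (m : 𝓞 L) ∈ w.asIdeal →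
      w.valuation L (x - 1) ≤ w.valuation L m) → sm (fun w => y (fr w)) x = 0 := by
  obtain ⟨m, m0, m1, m2, m3⟩ := H651.FCH REC L j p (Fact.out : p.Prime).pos (th hy)
    (hy.1.isOpen_fiber 0)
  refine ⟨m, m0, fun l a b => ?_, fun x x0 hx => ?_⟩
  · obtain ⟨R, r1, r2, i, r3, r4⟩ := m1 l a b
    exact ⟨R, ⟨a, r1, r2⟩, i, i.2, r3, r4⟩
  have key : ∀ α : 𝓞 L, α ≠ 0 → (m : 𝓞 L) ∣ α - 1 → sm (fun w => y (fr w)) (α : L) = 0 :=
    fun α a b => by
      have := m3 (fun w => y (fr w)) (fun w R g hm hg => fr_eq hy (fun R r1 r2 i i1 i2 =>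
        congrArg Multiplicative.toAdd (m2 R r1 (by
          rintro rfl
          exact P022D.Sel.LawP.below_ne r2) (fun k => hm ((nat_mem j r2 m).2 k)) ⟨i, i1⟩ i2))
        hg (hfr w)) (fun _ => 0) (fun φ g ⟨Φ, _, e⟩ => by
          have e1 : g * g = 1 := Subtype.ext (AlgEquiv.ext fun x => Φ.injective (by
            show Φ (g.1 (g.1 x)) = Φ x
            rw [e, e, Complex.conj_conj]))
          have e2 := congrArg Multiplicative.toAdd ((th hy).map_mul g g)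
          rw [e1, map_one, toAdd_one, toAdd_mul, ← two_mul] at e2
          refine (mul_eq_zero.1 e2.symm).resolve_left fun k => h2 ?_
          exact (Nat.prime_dvd_prime_iff_eq Fact.out Nat.prime_two).1
            ((ZMod.natCast_eq_zero_iff 2 p).1 (by exact_mod_cast k))) α a b
      simpa only [sm, finsum_zero, add_zero, zsmul_eq_mul] using this
  have m0' : (m : 𝓞 L) ≠ 0 := Nat.cast_ne_zero.2 m0
  have ml : ∀ w : HeightOneSpectrum (𝓞 L), w.valuation L m ≤ 1 := fun w =>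
    P011.ArP.val_nat_le _ m
  obtain ⟨d, n, d0, hd, e⟩ := den m0' (x := x) fun w hw => by
    rw [← sub_add_cancel x 1]
    exact Valuation.map_add_le _ ((hx w hw).trans (ml w)) (by rw [map_one])
  have d1 : (d : L) ≠ 0 := by simpa using d0
  have n0 : n ≠ 0 := fun k => mul_ne_zero x0 d1 (by rw [e, k]; rfl)
  have hn : (m : 𝓞 L) ∣ n - 1 := by
    have mL : (m : L) ≠ 0 := Nat.cast_ne_zero.2 m0
    obtain ⟨c, hc⟩ := hd
    obtain ⟨t, ht⟩ := HeightOneSpectrum.mem_integers_of_valuation_le_one (R := 𝓞 L) L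
      (((n : L) - 1) / m) fun w => by
        rw [map_div₀, div_le_one₀ (zero_lt_iff.2 ((Valuation.ne_zero_iff _).2 mL))]
        by_cases hw : (m : 𝓞 L) ∈ w.asIdeal
        · have e1 : (n : L) - 1 = (x - 1) * d + m * c := by
            have := congrArg (algebraMap (𝓞 L) L) hc
            rw [map_sub, map_mul, map_one, map_natCast] at this
            rw [← e]
            exact (by ring : _ = _ + ((d : L) - 1)).trans (congrArg _ this)
          rw [e1]
          refine Valuation.map_add_le _ ?_ ?_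
          · rw [map_mul]
            exact (mul_le_of_le_one_right' (w.valuation_le_one d)).trans (hx w hw)
          · rw [map_mul]
            exact mul_le_of_le_one_right' (w.valuation_le_one c)
        · have := (HeightOneSpectrum.valuation_eq_one_iff_notMem (K := L) w).2 hw
          rw [map_natCast] at this
          rw [this]
          exact Valuation.map_sub_le _ (w.valuation_le_one n) (by rw [map_one])
    refine ⟨t, RingOfIntegers.ext ?_⟩
    show algebraMap (𝓞 L) L (n - 1) = algebraMap (𝓞 L) L (m * t)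
    rw [map_mul, ht, map_natCast, mul_div_cancel₀ _ mL, map_sub, map_one]
  have := sm_mul (fun w => y (fr w)) x0 d1
  rwa [e, key n n0 hn, key d d0 hd, add_zero, eq_comm] at this

/-- an unramified character which kills the Frobenius elements above a big set is trivial -/
theorem van (h2 : p ≠ 2) {T : Finset ℕ} (hB : P022D.Sel.Big L T) {y : GQ → ZMod p}
    (hy : P022E.GW.Ch (GK j) y) (un : ∀ l P, Ov l P → ∀ i ∈ GK j, Inert P i → y i = 0)
    (hT : ∀ w ∈ P022D.Sel.ov L T, ∀ P g, FrI j w P g → y g = 0) : ∀ g ∈ GK j, y g = 0 := by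
  choose P fr hfr using H565.fre_exists j
  obtain ⟨m, m0, m1, m3⟩ := core h2 hy hfr
  obtain rfl : m = 1 := Nat.eq_one_iff_not_exists_prime_dvd.2 fun l a b => by
    obtain ⟨R, r1, i, r2, r3, r4⟩ := m1 l a b
    exact r4 (un l R r1 i r2 r3)
  have z : ∀ w, y (fr w) = 0 := fun w => by
    by_cases hw : w ∈ P022D.Sel.ov L T
    · exact hT w hw _ _ (hfr w)
    obtain ⟨π, π0, p1, p2⟩ := hB w hw
    have := m3 π π0 fun v hv => absurd ((Ideal.eq_top_iff_one _).2 (by simpa using hv))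
      v.isPrime.ne_top
    rwa [sm, finsum_eq_single _ w fun v hv => ?_, p1, Int.cast_one, one_mul] at this
    by_cases k : v ∈ P022D.Sel.ov L T
    · rw [hT v k _ _ (hfr v), mul_zero]
    · rw [p2 v k hv, Int.cast_zero, zero_mul]
  intro g hg
  by_contra c
  obtain ⟨l, _, hl, -, ⟨R, r1, r2, r3⟩, φ, h0, rfl⟩ := P022K.Cheb.exists_fr
    ((isOpen_GK j).isOpenMap_subtype_val _ (hy.1 {0}ᶜ)) ⟨⟨g, hg⟩, c, rfl⟩ ∅
  obtain ⟨w, hw, -⟩ := ex_below j hl.ne_zero r1 r2
  obtain ⟨ψ, hψ⟩ := GW.Pl.ex_fri j ⟨hl, r1, r2⟩ hw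
  refine h0 (dec_zero hy ⟨hl, r1, r2⟩ hψ ((fr_eq hy (fun R' a b => ?_) hψ (hfr w)).trans (z w))
    (un l R ⟨hl, r1, r2⟩) ⟨φ.2, GW.Pl.fr_dec r1 hl.ne_zero r3⟩)
  exact un l R' ⟨hl, a, (nat_mem j b l).1 ((nat_mem j hw l).2 r2)⟩

end Gl

/-- **the local global principle** -/
theorem hasse (h2 : p ≠ 2) : HASSE p := fun H z o hz z2 hl =>
  (cb_iff (H.isClosed_of_isOpen o)).1 (GW.hasp p H z h2 o (Gl.fx hz) (Z2.lib z2) fun l P ov =>
    B2.cb (st_fp P ▸ hl (fp P) (mem_ab_fp.2 ⟨l, trivial, ov⟩)))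

/-- **removal of the ramification** -/
theorem fix (h2 : p ≠ 2) : FIX p := fun H T w bg hz hp le ⟨W, hW, e⟩ h => by
  classical
  have nm : ∀ {l P}, l ∉ T.erase 0 → Ov l P → l ∉ T := fun a o b =>
    a (Finset.mem_erase.2 ⟨o.1.ne_zero, b⟩)
  obtain ⟨b, b1, b2⟩ := GW.fixq p H (T.erase 0) w h2 (Gl.fx hz) (by
      obtain ⟨L, _, _, j, e, hB⟩ := bg.1
      refine ⟨L, _, inferInstance, j, e, ?_⟩
      have : P022D.Sel.ov L (T.erase 0) = P022D.Sel.ov L T := Set.ext fun v =>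
        ⟨fun ⟨l, a, b⟩ => ⟨l, Finset.mem_of_mem_erase a, b⟩,
          fun ⟨l, a, b⟩ => ⟨l, Finset.mem_erase.2 ⟨b.1, a⟩, b⟩⟩
      unfold P022D.Sel.Big at hB ⊢
      rwa [this])
    (Finset.mem_erase.2 ⟨(Fact.out : p.Prime).ne_zero, hp⟩)
    (fun l a => (bg.2 l (Finset.mem_of_mem_erase a)).resolve_left (Finset.ne_of_mem_erase a))
    ⟨W, hW.opn, fun s m => e s m.1 m.2⟩ fun l hl P ov i _ hi =>
      ⟨fun i' _ => (h l (nm hl ov) P ov i hi).1 i', (h l (nm hl ov) P ov i hi).2⟩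
  exact ⟨b, (ch_iff (H.isClosed_of_isOpen (bg_open bg))).1 b1, fun i ⟨l, hl, P, ov, hi⟩ =>
    b2 l (fun a => hl (Finset.mem_of_mem_erase a)) P ov i (le ⟨l, hl, P, ov, hi⟩) hi⟩

/-- **no locally trivial characters** -/
theorem shu (h2 : p ≠ 2) : SHU p := by
  rintro _ T χ ⟨⟨L, _, _, j, rfl, hB⟩, pr⟩ - c hI hD
  have d : ∀ l ∈ T, ∀ P, Ov l P → ∀ g ∈ GK j, g ∈ dec P → χ g = 0 := fun l hl P ov g a b =>
    hD _ (mem_ab_fp.2 ⟨l, hl, ov⟩) g ⟨a, by rwa [st_fp]⟩
  refine Gl.van h2 hB c.lib (fun l P ov i a b => ?_) ?_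
  · by_cases m : l ∈ T
    exacts [d l m P ov i a (P022D.W.inP_le_dec b), hI i a ⟨l, m, P, ov, b⟩]
  · rintro w ⟨l, l1, l0, l2⟩ P g hg
    have o : Ov l P := ⟨(pr l l1).resolve_left l0, hg.1, (nat_mem j hg.2.1 l).1 l2⟩
    exact d l l1 P o g g.2 (GW.Pl.fri j o hg.2.1 hg).1.2

/-- **no locally trivial classes of degree two** -/
theorem sha (h2 : p ≠ 2) : SHA p := P022K.G2.sha p (hasse h2) (unr p) (fix h2)

theorem sh1 (h2 : p ≠ 2) : SH1 p := P022K.G2.sh1 p (shu h2)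

end Vale.Agent.P014U.G2
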