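import Vale.Agent.P014U.G2.On0
import Vale.Agent.P014U.G2.Glo
import Vale.Agent.P022D.Sel.Inj

/-!
# P014U, block G2: reciprocity (rows `ONE`, `REC` for an odd prime; helper68)
-/

set_option linter.all false

noncomputable section

namespace Vale.Agent.P014U.G2

open NumberField Module IsDedekindDomain
open Vale.Agent.P022 Vale.Agent.P022.C Vale.Agent.P022.H916 Vale.Agent.P022.H443
open Vale.Agent.P027M.S (Inert)
open Vale.Agent.P022D.W (dec inP_le_dec conj_inP phi_mem)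
open Vale.Agent.P022E.GW (Ov Fb)
open Vale.Agent.P022E.GW.Kc (nat_mem ex_above ex_below prime_mem)
open Vale.Agent.P022K Vale.Agent.P022K.G2 Vale.Agent.P022K.G2.Hb
open Vale.Agent.P022K.GW.Rcp (sm sm_pw fr_eq approx)
open scoped Pointwise

variable {p : ℕ} [Fact p.Prime]

namespace On

variable {k : Type} [Field k]

theorem bc {A : Subgroup GQ} {z z' : GQ → GQ → k} (h : z ∈ B2 ∅ A (tr GQ k))
    (e : ∀ g ∈ A, ∀ j ∈ A, z' g j = z g j) : z' ∈ B2 ∅ A (tr GQ k) := B2.congr h e fun _ _ => rfl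

theorem b2_cj {A A' : Subgroup GQ} {g : GQ} (n : ∀ x ∈ A', g * x * g⁻¹ ∈ A) {z : GQ → GQ → k}
    (h : z ∈ B2 ∅ A (tr GQ k)) :
    (fun x y => z (g * x * g⁻¹) (g * y * g⁻¹)) ∈ B2 ∅ A' (tr GQ k) := by
  have e : ∀ x y : GQ, g * (x * y) * g⁻¹ = g * x * g⁻¹ * (g * y * g⁻¹) := fun x y => by group
  obtain ⟨c, ⟨W, hW, w⟩, h⟩ := h
  exact ⟨fun x => c (g * x * g⁻¹), ⟨W, hW, fun x hx y hy m => by
      beta_reduce; rw [e]; exact w _ (n x hx) _ (n y hy) (hW.nrm.conj_mem y m g)⟩,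
    fun x hx y hy => by rw [d1_apply, e]; exact h _ (n x hx) _ (n y hy)⟩

theorem ch_cj {A A' : Subgroup GQ} {g : GQ} (n : ∀ x ∈ A', g * x * g⁻¹ ∈ A) {a : GQ → k}
    (h : Ch A a) : Ch A' fun x => a (g * x * g⁻¹) :=
  ⟨fun x hx y hy => by
      beta_reduce
      rw [← h.1 _ (n x hx) _ (n y hy)]
      congr 1
      group,
    h.2.imp fun W hW => ⟨hW.1, fun w hw m => hW.2 _ (n w hw) (hW.1.nrm.conj_mem w m g)⟩⟩

theorem dec_cj (g x : GQ) (P : Ideal (𝓞 Qb)) : x ∈ dec P ↔ g * x * g⁻¹ ∈ dec (g • P) := by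
  rw [GW.Pl.dec_iff, GW.Pl.dec_iff, mul_smul, inv_smul_smul, mul_smul, smul_left_cancel_iff]

/-- at infinity nothing happens -/
theorem inf_b2 (h2 : p ≠ 2) {H : Subgroup GQ} (hz : H ≤ Gz p) (w : InfinitePlace Qb) :
    ∀ g ∈ H ⊓ St (ip w), g = 1 := fun g hg => by
  obtain ⟨c, -, -, hS, hc⟩ := ex_cc w
  refine ((hS g).1 hg.2).resolve_right fun e => h2 ?_
  have := mem_Gz.1 (hz hg.1)
  rw [e, oz_cc hc] at this
  exact (Nat.prime_dvd_prime_iff_eq Fact.out Nat.prime_two).1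
    ((ZMod.natCast_eq_zero_iff 2 p).1 (by push_cast; linear_combination -this))

/-- **reciprocity over a field which contains the roots of unity** -/
theorem one0 (h2 : p ≠ 2) (hG : GYS p) [CharP k p] {H : Subgroup GQ} (hO : IsOpen (H : Set GQ))
    (hz : H ≤ Gz p) {z : GQ → GQ → k} (z2 : z ∈ Z2 ∅ H (tr GQ k)) {κ : Type} [Fintype κ]
    {l : κ → ℕ} {P : κ → Ideal (𝓞 Qb)} {φ : κ → GQ} {u ψ : κ → GQ → k} {s : κ → k}
    (tm : ∀ i, Tm p H (l i) (P i) (φ i)) (un : ∀ i j, ∀ g ∈ H, P j = g • P i → i = j)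
    (h3 : ∀ i, Ch (dec (P i)) (u i) ∧ Ch (dec (P i)) (ψ i) ∧ (∀ g, Inert (P i) g → u i g = 0 ∧
      ψ i g = ZMod.castHom (dvd_refl p) k (ka p (l i) g) * s i) ∧
      z - cup (u i) (ψ i) ∈ B2 ∅ (dec (P i)) (tr GQ k))
    (h5 : ∀ a Q, Ov a Q → (∀ i, ∀ g ∈ H, Q ≠ g • P i) → z ∈ B2 ∅ (H ⊓ dec Q) (tr GQ k)) :
    ∑ i, u i (φ i) * s i = 0 := by
  classical
  obtain ⟨K, _, _, j, rfl⟩ := P022E.GW.Hy.ex_fld hO
  have pm : ∀ i, φ i ∈ dec (P i) := fun i => phi_mem (tm i).ov.1 (tm i).ov.2.1 (tm i).fb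
  obtain ⟨q, pq, qp, qS, pI, pF, pD, pU⟩ := prime (p := p) hO (Finset.univ.image l) fun a ha => by
    obtain ⟨i, -, rfl⟩ := Finset.mem_image.1 ha
    exact ⟨(tm i).ov.1, (tm i).ne, dvd_sub (tm i).ov (tm i).ne (tm i).fb (hz ((tm i).le (pm i)))⟩
  have lS : ∀ i, l i ∈ Finset.univ.image l := fun i => Finset.mem_image_of_mem _ (Finset.mem_univ i)
  have lq : ∀ i, l i ≠ q := fun i e => qS (e ▸ lS i)
  have q1 : (q : Qb) ≠ 0 := Nat.cast_ne_zero.2 pq.ne_zero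
  have χc : Ch (GK j) (ka p (q : Qb)) := ka_ch hz q1 fun g _ => map_natCast g q
  obtain ⟨n0, hn0⟩ : ∃ χ, χ = ka p (q : Qb) := ⟨_, rfl⟩
  have ad := fun b => adj (j := j) (b := b) hz pq qp pI
  have ram : ∀ Q, Ov q Q → ∃ t ∈ GK j, Inert Q t ∧ ka p (q : Qb) t = 1 := fun Q h => by
    obtain ⟨t, t1, t2⟩ := ex_tau (p := p) h qp
    exact ⟨t, pI Q h t t1, t1, t2⟩
  generalize ka p (q : Qb) = χ at pF pD pU χc ad ram
  clear hn0 n0
  letI : Algebra (ZMod p) k := ZMod.algebra k p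
  have lin : ∀ (Λ : Dual (ZMod p) k) (a : ZMod p) (x : k),
      Λ (ZMod.castHom (dvd_refl p) k a * x) = a * Λ x := fun Λ a x => by
    rw [← smul_eq_mul a, ← map_smul, Algebra.smul_def]; rfl
  refine (Module.forall_dual_apply_eq_zero_iff (ZMod p) _).1 fun Λ => ?_
  obtain ⟨w, hw⟩ : ∃ w : GQ → GQ → ZMod p, w = fun g h => Λ (z g h) := ⟨_, rfl⟩
  have wz : w ∈ Z2 ∅ (GK j) (tp p) := hw ▸ Z2.amap z2 Λ.toAddMonoidHom fun _ _ _ => rfl
  have wc : ∀ D, z ∈ B2 ∅ D (tr GQ k) → w ∈ B2 ∅ D (tp p) := fun D h =>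
    hw ▸ B2.amap h Λ.toAddMonoidHom fun _ _ _ => rfl
  have φ1 : ∀ i, χ (φ i) ≠ 0 := fun i => pF _ (lS i) _ _ (tm i).ov (tm i).fb
  have χI : ∀ i g, Inert (P i) g → χ g = 0 := fun i g hg =>
    pU _ _ (lq i) (tm i).ov g (hz ((tm i).le (inP_le_dec hg))) hg
  let β : κ → GQ → ZMod p := fun i g => (χ (φ i))⁻¹ * Λ (u i (φ i) * ψ i g)
  have βc : ∀ i, Ch (dec (P i)) (β i) := fun i =>
    ((((h3 i).2.1.smul (u i (φ i))).map Λ.toAddMonoidHom).smul (χ (φ i))⁻¹)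
  have w3 : ∀ i, w - cup χ (β i) ∈ B2 ∅ (dec (P i)) (tp p) := fun i => by
    obtain ⟨a1, a2, a3, a5⟩ := h3 i
    refine bc (B2.amap (ρ' := tp p) a5 Λ.toAddMonoidHom fun _ _ _ => rfl) fun x hx y _ => ?_
    have e := unr_zero (tm i).ov (tm i).fb (a1.sub ((((χc.mono (tm i).le).smul (χ (φ i))⁻¹).map
      (ZMod.castHom (dvd_refl p) k).toAddMonoidHom).smul (u i (φ i))))
      (fun g hg => by simp [(a3 g hg).1, χI i g hg]) (by
        simp only [Pi.sub_apply, Pi.smul_apply, smul_eq_mul, inv_mul_cancel₀ (φ1 i),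
          RingHom.toAddMonoidHom_eq_coe, AddMonoidHom.coe_coe, map_one, mul_one, sub_self]) hx
    simp only [Pi.sub_apply, Pi.smul_apply, smul_eq_mul, sub_eq_zero,
      RingHom.toAddMonoidHom_eq_coe, AddMonoidHom.coe_coe] at e
    simp only [hw, Pi.sub_apply, cup, map_sub, LinearMap.toAddMonoidHom_coe, β]
    rw [e, mul_comm (u i (φ i)) (ZMod.castHom _ _ _), mul_assoc (ZMod.castHom _ _ _), lin]
    ring
  have w4 : w ∈ B2 ∅ χc.ker (tp p) := by
    have le : χc.ker ≤ GK j := fun g m => m.1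
    refine hasse h2 _ w (χc.le_ker.isOpen hO) (le.trans hz) (Z2.mono wz subset_rfl le) ?_
    rintro _ (⟨a, -, Q, ov, rfl⟩ | ⟨-, x, rfl⟩)
    · rw [st_fp]
      by_cases c : ∀ i, ∀ g ∈ GK j, Q ≠ g • P i
      · exact B2.mono (wc _ (h5 a Q ov c)) subset_rfl (inf_le_inf_right _ le)
      push Not at c
      obtain ⟨i, g, hg, rfl⟩ := c
      refine cj2 GQ _ _ ∅ (GK j) (χc.ker ⊓ dec (P i)) _ _ w g (rp_tr _ _) wz hg
        (inf_le_left.trans le) (fun x => and_congr ?_ (dec_cj g x _)) ?_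
      · refine ⟨fun m => ⟨mul_mem (mul_mem hg m.1) (inv_mem hg), ?_⟩, fun m => ?_⟩
        · rw [χc.1 _ (mul_mem hg m.1) _ (inv_mem hg), χc.1 _ hg _ m.1, χc.inv hg, m.2]; ring
        · have m1 : x ∈ GK j := ((GK j).mul_mem_cancel_left hg).1
            (((GK j).mul_mem_cancel_right (inv_mem hg)).1 m.1)
          have m2 := m.2
          rw [χc.1 _ (mul_mem hg m1) _ (inv_mem hg), χc.1 _ hg _ m1, χc.inv hg] at m2
          exact ⟨m1, by linear_combination m2⟩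
      · refine bc (B2.mono (w3 i) subset_rfl inf_le_right) fun x hx y _ => ?_
        simp only [Pi.sub_apply, cup, hx.1.2, zero_mul, sub_zero]
    · refine ⟨fun _ => w 1 1, ⟨⊤, Lv.top _, fun _ _ _ _ _ => rfl⟩, fun g hg h hh => ?_⟩
      rw [inf_b2 h2 (le.trans hz) x g hg, inf_b2 h2 (le.trans hz) x h hh, d1_apply, tr_apply]
      ring
  obtain ⟨b', b0, b1, w5⟩ := hG (GK j) _ χ w hz χc (fun g => Iff.rfl) wz w4
  obtain ⟨b, rfl⟩ := fixed j (x := b') fun g => b1 g g.2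
  have b2 := (map_ne_zero j).1 b0
  obtain ⟨n, n0, n1, hy⟩ := ad b b2
  have w6 : w - cup χ (ka p (j (b * n))) ∈ B2 ∅ (GK j) (tp p) :=
    bc (sub_mem w5 n1) fun x _ g hg => by
      simp only [Pi.sub_apply, cup, map_mul, ka_mul b0 ((map_ne_zero j).2 n0) (hz hg) (hg b) (hg n)]
      ring
  have y0 := mul_ne_zero b2 n0
  generalize b * n = y at hy w6 y0
  have cc : ∀ D ≤ GK j, Ch D (ka p (j y)) := fun D h =>
    ka_ch (h.trans hz) ((map_ne_zero j).2 y0) fun g hg => h hg y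
  have w7 : ∀ a Q, Ov a Q → (∀ i, below j (P i) ≠ below j Q) →
      cup χ (ka p (j y)) ∈ B2 ∅ (GK j ⊓ dec Q) (tp p) := fun a Q h c => by
    have := sub_mem (wc _ (h5 a Q h fun i g hg e => c i (by rw [e, GW.Pl.below_smul j hg])))
      (B2.mono w6 subset_rfl inf_le_left)
    rwa [sub_sub_cancel] at this
  choose v hv lv using fun i => ex_below j (tm i).ov.1.ne_zero (tm i).ov.2.1 (tm i).ov.2.2
  have vp : ∀ i, v i ∉ P022D.Sel.ov K {q} := by
    rintro i ⟨a, ha, -, m⟩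
    obtain rfl := Finset.mem_singleton.1 ha
    exact lq i (GW.Pl.ov_uniq (tm i).ov ⟨pq, (tm i).ov.2.1, (nat_mem j (hv i) _).1 m⟩)
  choose Q fr hfr using H565.fre_exists j
  obtain ⟨m, m0, m1, m3⟩ := Gl.core h2 χc.lib hfr
  obtain ⟨M, hM⟩ := GW.Tam.ex_mu (j := j) h2 (zt_prim p) fun g hg => mem_Gz'.1 (hz hg)
  have fo := P022D.Sel.Pl.fin_ov (L := K) {q}
  have mL : (m : K) ≠ 0 := Nat.cast_ne_zero.2 m0
  obtain ⟨t, t0, ht⟩ := approx M fo.toFinset (b := Units.mk0 y y0) (fun r hr => by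
      have hr' := fo.mem_toFinset.1 hr
      obtain ⟨a, ha, -, m⟩ := id hr'
      obtain rfl := Finset.mem_singleton.1 ha
      obtain ⟨R, a1, a2⟩ := ex_above j r
      have o : Ov a R := ⟨pq, a1, (nat_mem j a2 _).1 m⟩
      obtain ⟨x, s1, s2, s3⟩ := ram R o
      refine (GW.kum3 p K M j a R r o a2 _ (ka p (j y)) ⟨rt p (j y), rt_pow p _, fun g hg => by
        rw [hM]; exact ka_spec (hg y)⟩).1 fun g hg => ?_
      have c1 := w7 a R o fun i e => vp i (by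
        rwa [HeightOneSpectrum.ext ((hv i).symm.trans (e.trans a2))])
      have c2 := sub_mem (cup_skew (χc.mono inf_le_left) (cc _ inf_le_left)) c1
      rw [add_sub_cancel_left] at c2
      have := tame o qp inf_le_right (χc.mono inf_le_left)
        (fun x a b => ka_of_dvd j o qp a2 y0 (hy r hr') a.1 b) c2 hg ⟨s1, inP_le_dec s2⟩ s2
      rwa [s3, mul_one] at this)
    (fun r => r.valuation K m) (fun r => (Valuation.ne_zero_iff _).2 mL)
    fun r => P011.ArP.val_nat_le _ m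
  have key := m3 _ (mul_ne_zero y0 (pow_ne_zero p t0)) fun r hr => (ht r (fo.mem_toFinset.2 (by
    obtain ⟨a, l1, l2, l3⟩ := H477.GC.exists_prime_mem r.isPrime m m0 hr
    obtain ⟨R, r1, i, r2, r3, r4⟩ := m1 a l1 l2
    exact ⟨a, Finset.mem_singleton.2 (by_contra fun c => r4 (pU a R c r1 i (hz r2) r3)),
      l1.ne_zero, l3⟩))).le
  rw [sm_pw _ y0 t0, sm, finsum_eq_sum_of_support_subset (s := Finset.univ.image v),
    Finset.sum_image] at key
  · rw [map_sum, ← key]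
    refine Finset.sum_congr rfl fun i _ => ?_
    obtain ⟨a1, a2, a4, a5⟩ := tm i
    obtain ⟨τ, t1, t2⟩ := ex_tau (p := p) a1 a2
    have e1 : χ (fr (v i)) = χ (φ i) := by
      refine fr_eq χc.lib (fun R r1 r2 g g1 g2 => pU _ R (lq i)
        ⟨a1.1, r1, (nat_mem j r2 _).1 (lv i)⟩ g (hz g1) g2) (hfr _)
        (g' := ⟨φ i, a5 (pm i)⟩) ⟨a1.2.1, hv i, ?_⟩
      rw [P022D.Sel.Inj.norm_eq (v i) (l i) a1.1 (lv i) fun x => ?_]
      · exact a4
      · rw [← hv i, below, Ideal.mem_comap, map_sub, map_pow]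
        have := a4 (RingOfIntegers.mapRingHom j x)
        rwa [GW.Pl.fix_int j (a5 (pm i))] at this
    have e2 := tame a1 a2 le_rfl (u := χ) ((cc _ a5).sub (βc i)) (fun x _ => χI i x)
      (bc (sub_mem (w3 i) (B2.mono w6 subset_rfl a5)) fun x _ g _ => by
        simp only [Pi.sub_apply, cup]; ring) (pm i) (inP_le_dec t1) t1
    simp only [Pi.sub_apply, β, ka_ord a1 a2 (hv i) a5 y0 t1, ((h3 i).2.2.1 τ t1).2, t2, map_one,
      one_mul, mul_one, mul_sub, mul_inv_cancel_left₀ (φ1 i)] at e2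
    rw [e1]
    linear_combination -e2
  · intro i _ i' _ e
    obtain ⟨g, hg⟩ := exists_smul j (tm i).ov.2.1 (tm i').ov.2.1
      ((hv i).trans (e ▸ (hv i').symm))
    exact un i i' g g.2 hg
  · intro r hr
    by_contra hn
    refine hr ?_
    beta_reduce
    by_cases c : r ∈ P022D.Sel.ov K {q}
    · rw [(ZMod.intCast_zmod_eq_zero_iff_dvd _ _).2 (hy r c), zero_mul]
    obtain ⟨a1, a2, a3⟩ := hfr r
    obtain ⟨a, ha, m⟩ := prime_mem r
    have o : Ov a (Q r) := ⟨ha, a1, (nat_mem j a2 _).1 m⟩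
    have md := GW.Pl.fr_dec a1 (Ideal.absNorm_eq_zero_iff.not.2 r.ne_bot) a3
    by_cases ap : a = p
    · rw [pD _ (ap ▸ o) _ md (hz (fr r).2), mul_zero]
    by_cases e : χ (fr r) = 0
    · rw [e, mul_zero]
    have c1 := w7 a (Q r) o fun i e => hn (Finset.mem_coe.2 (Finset.mem_image.2
      ⟨i, Finset.mem_univ i, HeightOneSpectrum.ext ((hv i).symm.trans (e.trans a2))⟩))
    rw [(ZMod.intCast_zmod_eq_zero_iff_dvd _ _).2 (dvd_ordv j o a2 y0 fun g g1 g2 =>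
      ⟨hz g1, (mul_eq_zero.1 (tame o ap inf_le_right (cc _ inf_le_left) (fun x b d => pU a _
        (fun e' => c ⟨a, Finset.mem_singleton.2 e', ha.ne_zero, m⟩) o x (hz b.1) d) c1
        ⟨(fr r).2, md⟩ ⟨g1, inP_le_dec g2⟩ g2)).resolve_left e⟩), zero_mul]

end On

open On

/-- **reciprocity** -/
theorem one (h2 : p ≠ 2) (hG : GYS p) : ONE p := by
  classical
  intro k _ _ _ Γ z κ _ l P φ u ψ s o hz tm un h hl
  have i0 : ((Gz p).relIndex Γ : k) ≠ 0 := by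
    rw [Ne, CharP.cast_eq_zero_iff k p]
    exact fun h => Gz_index (h.trans (Subgroup.relIndex_dvd_index_of_normal _ _))
  obtain ⟨R, t⟩ := ex_tv (Γ := Γ) (U := Gz p) fun e => i0 (by rw [e, Nat.cast_zero])
  have N : (Gz p).Normal := Gz_normal
  have co : ∀ g ∈ Γ ⊓ Gz p, tr GQ k g = ch (om p k) g := fun g hg => (ch_om k hg.2).symm
  have dc : ∀ (r : GQ) i, ∀ x ∈ dec (r • P i), r⁻¹ * x * r⁻¹⁻¹ ∈ dec (P i) := fun r i x hx => by
    have := (dec_cj r⁻¹ x _).1 hx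
    rwa [inv_smul_smul] at this
  have dl : ∀ r ∈ R, ∀ i, dec (r • P i) ≤ Γ ⊓ Gz p := fun r hr i x hx => by
    have m := (tm i).le (dc r i x hx)
    rw [show x = r * (r⁻¹ * x * r⁻¹⁻¹) * r⁻¹ by group]
    exact ⟨Γ.mul_mem (Γ.mul_mem (t.mem r hr) m.1) (Γ.inv_mem (t.mem r hr)), N.conj_mem _ m.2 r⟩
  have := one0 h2 hG (κ := κ × R) (o.inter Gz_open) inf_le_right
    (Z2.congr (Z2.mono hz subset_rfl inf_le_left) (fun _ _ _ _ => rfl) co)
    (l := fun x => l x.1) (P := fun x => x.2.1 • P x.1) (φ := fun x => x.2.1 * φ x.1 * x.2.1⁻¹)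
    (u := fun x g => u x.1 (x.2.1⁻¹ * g * x.2.1⁻¹⁻¹))
    (ψ := fun x => om p k x.2.1 • fun g => ψ x.1 (x.2.1⁻¹ * g * x.2.1⁻¹⁻¹)) (s := fun x => s x.1)
    (fun ⟨i, r, hr⟩ => ⟨GW.ov_smul (tm i).ov r, (tm i).ne, fun x => by
      rw [mem_smul, smul_sub, smul_pow', ← mul_smul, show r⁻¹ * (r * φ i * r⁻¹) = φ i * r⁻¹ by group,
        mul_smul]
      exact (tm i).fb _, dl r hr i⟩)
    (fun ⟨i, r, hr⟩ ⟨i', r', hr'⟩ g hg e => by
      have e' : P i' = (r'⁻¹ * g * r) • P i := by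
        rw [mul_smul, mul_smul, eq_inv_smul_iff]; exact e
      obtain rfl := un i i' _ (mul_mem (mul_mem (inv_mem (t.mem r' hr')) hg.1) (t.mem r hr)) e'
      have m : r'⁻¹ * g * r ∈ Gz p := ((tm i).le ((GW.Pl.dec_iff _ _).2 e'.symm)).2
      rw [show r'⁻¹ * g * r = r'⁻¹ * g * r'⁻¹⁻¹ * (r'⁻¹ * r) by group,
        (Gz p).mul_mem_cancel_left (N.conj_mem _ hg.2 _)] at m
      obtain rfl := t.un r' hr' r hr m
      rfl)
    (fun ⟨i, r, hr⟩ => ⟨ch_cj (dc r i) (h i).1, (ch_cj (dc r i) (h i).2.1).smul _,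
      fun g hg => ?_, ?_⟩) fun a Q ov n => ?_
  · rw [Fintype.sum_prod_type] at this
    simp only [inv_inv, ← mul_assoc, inv_mul_cancel, one_mul, inv_mul_cancel_right,
      Finset.sum_const, Finset.card_univ, Fintype.card_coe, t.card, nsmul_eq_mul] at this
    simp only [mul_assoc, ← Finset.mul_sum] at this
    exact (mul_eq_zero.1 this).resolve_left i0
  · have i1 := GW.Pl.inert_conj hg r⁻¹
    simp only [inv_smul_smul] at i1
    have e := ka_conj (p := p) (Nat.cast_ne_zero.2 (tm i).ov.1.ne_zero : (l i : Qb) ≠ 0) r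
      ((tm i).le (inP_le_dec i1)).2 (map_natCast _ _)
    rw [map_natCast, show r * (r⁻¹ * g * r⁻¹⁻¹) * r⁻¹ = g by group] at e
    refine ⟨((h i).2.2.1 _ i1).1, ?_⟩
    simp only [Pi.smul_apply, smul_eq_mul]
    rw [((h i).2.2.1 _ i1).2, e, map_mul, om]
    exact (mul_assoc _ _ _).symm
  · have h1 := B2.congr (B2.mono (cj0 GQ k k ∅ Γ _ z r⁻¹ (rp_om k Γ) hz (inv_mem (t.mem r hr)))
      subset_rfl ((dl r hr i).trans inf_le_left)) (fun _ _ _ _ => rfl) fun g m => co g (dl r hr i m)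
    refine bc (add_mem h1 (Submodule.smul_mem _ (om p k r) (b2_cj (dc r i) (h i).2.2.2)))
      fun x _ y _ => ?_
    simp only [Pi.sub_apply, Pi.add_apply, Pi.smul_apply, smul_eq_mul, ch_apply, cup, inv_inv]
    ring
  · have := hl _ (mem_ab_fp.2 ⟨a, trivial, ov⟩) fun i g hg e => by
      obtain ⟨r, hr, m⟩ := t.ex g hg
      refine n (i, ⟨r, hr⟩) (g * r⁻¹) ⟨Γ.mul_mem hg (Γ.inv_mem (t.mem r hr)), ?_⟩ ?_
      · simpa [mul_assoc] using N.conj_mem _ m r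
      · rw [mul_smul, inv_smul_smul]; exact Sum.inl.inj e
    rw [st_fp] at this
    exact B2.congr (B2.mono this subset_rfl (inf_le_inf_right _ inf_le_left)) (fun _ _ _ _ => rfl)
      fun g m => co g m.1

/-- **reciprocity for a pairing** -/
theorem rec' (h2 : p ≠ 2) (hG : GYS p) : P022K.G2.REC p :=
  P022K.G2.rec' p (one h2 hG) (unt p tr2 pr0) (tam p)

end Vale.Agent.P014U.G2
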