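import Vale.Agent.P014U.Base
import Vale.Agent.P014U.G2.One
import Vale.Agent.P014U.G2.Gys
import Vale.Agent.P014U.G2.Dim
import Vale.Agent.P022K.G2.Twl
import Vale.Agent.P022K.G2.Chi
import Vale.Agent.P022K.G2.Gpc
import Vale.Agent.P022K.G2.Lpc

/-!
# P014U, block G2: the rows for the odd prime, closed (helper68)
-/

namespace Vale.Agent.P014U.G2

open Vale.Agent.P022 Vale.Agent.P022K.G2

/-- the local global principle with values in the roots of unity -/
theorem hast {p : ℕ} [Fact p.Prime] (h2 : p ≠ 2) {Γ : Subgroup GQ} {z : GQ → GQ → ZMod p}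
    (o : IsOpen (Γ : Set GQ)) (hz : z ∈ Z2 ∅ Γ (ch (om p (ZMod p))))
    (h : ∀ x ∈ Ab Set.univ, z ∈ B2 ∅ (Γ ⊓ St x) (ch (om p (ZMod p)))) :
    z ∈ B2 ∅ Γ (ch (om p (ZMod p))) := by
  have hr := rp_om (p := p) (ZMod p) Γ
  have co : ∀ g ∈ Γ ⊓ Gz p, ch (om p (ZMod p)) g = tp p g := fun g hg => ch_om _ hg.2
  refine tr2 GQ _ _ ∅ _ (Gz p) _ z hr (pr0 GQ _ _ ∅ _ _ _ hr ?_) (le_of_open Gz_open _) hz ?_
  · rw [Ne, CharP.cast_eq_zero_iff (ZMod p) p]
    exact fun h => Gz_index (h.trans (Subgroup.relIndex_dvd_index_of_normal _ _))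
  · exact B2.congr (hasse h2 _ z (o.inter Gz_open) inf_le_right
      (Z2.congr (Z2.mono hz subset_rfl inf_le_left) (fun _ _ _ _ => rfl) fun g m => (co g m).symm)
      fun x hx => B2.congr (B2.mono (h x hx) subset_rfl (inf_le_inf_right _ inf_le_left))
        (fun _ _ _ _ => rfl) fun g m => (co g m.1).symm) (fun _ _ _ _ => rfl) co

variable [Pp]

theorem hasse2 : HASSE pp := hasse pp_ne_two

theorem gys2 : GYS pp := gys pp

theorem one2 : ONE pp := one pp_ne_two gys2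

theorem shu2 : SHU pp := shu pp_ne_two

theorem sha2 : SHA pp := sha pp_ne_two

theorem rec2 : P022K.G2.REC pp := rec' pp_ne_two gys2

theorem sh12 : SH1 pp := sh1 pp_ne_two

theorem unt_two : UNT pp := unt pp tr2 pr0

theorem nil2 : NIL pp := nil pp_ne_two

theorem dim12 : DIM1 pp := dim1 nil2

theorem dimt2 : DIMT pp := dimt nil2 dim12

theorem chi02 : CHI0 pp := chi0 pp sha2 (gpc pp) (lpc pp)

theorem chi2 : CHI pp := chi pp chi02 (gpc pp) one2

theorem llb2 : LLB pp := llb pp chi02 (lpc pp) dimt2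

theorem lb2 : LB pp := lb pp chi2 llb2

theorem twl2 : TWL pp := twl pp lb2 rec2 sh12 (tam pp)

end Vale.Agent.P014U.G2
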