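import Vale.Agent.P022K.G2.Ext
import Vale.Agent.P022K.G2.Rec
import Vale.Agent.P022K.G2.Tr2
import Vale.Agent.P022K.GW.Loc
import Vale.Agent.P022E.GW.OneP

/-!
# P014U, block G2: the tame symbol, norms, the auxiliary prime (any prime `p`; helper68)
-/

set_option linter.all false

noncomputable section

namespace Vale.Agent.P014U.G2.On

open NumberField Module IsDedekindDomain
open Vale.Agent.P022 Vale.Agent.P022.C Vale.Agent.P022.H916 Vale.Agent.P022.H443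
open Vale.Agent.P027M.S (Inert)
open Vale.Agent.P027M.S.Cls (ordv_mul ordv_zpow ordv_pow val_eq ordv_of)
open Vale.Agent.P022D.W (dec inP_le_dec conj_inP phi_mem)
open Vale.Agent.P022E.GW (Ov Fb)
open Vale.Agent.P022E.GW.OneP (cop)
open Vale.Agent.P022E.GW.Kc (nat_mem)
open Vale.Agent.P022K Vale.Agent.P022K.G2 Vale.Agent.P022K.G2.Hb
open Vale.Agent.P022K.GW.Lc (vr v_res apx)
open scoped Pointwise

variable {p : ℕ} [Fact p.Prime] {l : ℕ} {P : Ideal (𝓞 Qb)}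

section tame

variable {k : Type} [Field k] [CharP k p]

theorem add_pow {D : Subgroup GQ} {a : GQ → k} (ha : ∀ s ∈ D, ∀ t ∈ D, a (s * t) = a s + a t)
    {s : GQ} (hs : s ∈ D) (n : ℕ) : a (s ^ n) = n * a s := by
  induction n with
  | zero =>
    have := ha 1 D.one_mem 1 D.one_mem
    rw [mul_one] at this
    simpa using left_eq_add.1 this
  | succ n ih => rw [pow_succ, ha _ (D.pow_mem hs n) _ hs, ih]; push_cast; ring

/-- characters of a subgroup of the inertia group at a prime `l ≠ p` are proportional -/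
theorem ti (h : Ov l P) (hl : l ≠ p) {I : Subgroup GQ} (hI : I ≤ inP P) {U : Subgroup GQ}
    (hU : Lv ∅ U) : ∃ t ∈ I, ∀ s ∈ I, ∃ n : ℕ, ∀ a : GQ → k,
      (∀ s ∈ I, ∀ t ∈ I, a (s * t) = a s + a t) → (∀ s ∈ I, s ∈ U → a s = 0) → a s = n * a t := by
  haveI := hU.nrm
  obtain ⟨R, _, _, χ, hfin, h1, -⟩ := CH.Loc.chi_data U hU.opn h
  let χ' := χ.toHomUnits.comp (Subgroup.inclusion hI)
  have hfin' : Finite χ'.range := by
    have := hfin.to_subtype
    refine Finite.of_injective (β := Set.range χ)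
      (fun x => ⟨(x.1 : R), by obtain ⟨g, hg⟩ := x.2; exact ⟨_, by rw [← hg]; rfl⟩⟩) ?_
    intro x y h
    exact Subtype.ext (Units.ext (Subtype.ext_iff.1 h))
  have hc : IsCyclic χ'.range := isCyclic_of_injective_ringHom
    ((Units.coeHom R).comp χ'.range.subtype) (fun x y h => Subtype.ext (Units.ext h))
  obtain ⟨⟨_, τ, rfl⟩, hτ⟩ := IsCyclic.exists_monoid_generator (α := χ'.range)
  refine ⟨τ, τ.2, fun g hg => ?_⟩
  obtain ⟨n, hn⟩ := hτ ⟨χ' ⟨g, hg⟩, _, rfl⟩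
  have hn' : χ' τ ^ n = χ' ⟨g, hg⟩ := congrArg Subtype.val hn
  refine ⟨n, fun a ha h0 => ?_⟩
  have e : χ' ((τ ^ n)⁻¹ * ⟨g, hg⟩) = 1 := by rw [map_mul, map_inv, map_pow, hn', inv_mul_cancel]
  have e' : χ (Subgroup.inclusion hI ((τ ^ n)⁻¹ * (⟨g, hg⟩ : I))) = 1 := congrArg Units.val e
  obtain ⟨m, hm⟩ := (h1 _).1 e'
  have hp : ((τ : GQ) ^ n)⁻¹ * g ∈ I := ((τ ^ n)⁻¹ * ⟨g, hg⟩ : I).2
  have e1 := h0 _ (I.pow_mem hp (l ^ m)) hm
  have l0 : (l : k) ≠ 0 := fun c => hl ((Nat.prime_dvd_prime_iff_eq Fact.out h.1).1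
    ((CharP.cast_eq_zero_iff k p l).1 c)).symm
  rw [add_pow ha hp, Nat.cast_pow, mul_eq_zero] at e1
  have e2 := ha _ (I.pow_mem τ.2 n) _ hp
  rwa [mul_inv_cancel_left, e1.resolve_left (pow_ne_zero _ l0), add_zero, add_pow ha τ.2] at e2

/-- **the tame symbol**: `u` unramified -/
theorem tame (h : Ov l P) (hl : l ≠ p) {D : Subgroup GQ} (hD : D ≤ dec P) {u b : GQ → k}
    (hb : Ch D b) (hu : ∀ s ∈ D, Inert P s → u s = 0) (hc : cup u b ∈ B2 ∅ D (tr GQ k))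
    {φ s : GQ} (hφ : φ ∈ D) (hs : s ∈ D) (hi : Inert P s) : u φ * b s = 0 := by
  obtain ⟨z, ⟨U, hU, eU⟩, e⟩ := hc
  obtain ⟨V, hV, eV⟩ := hb.2
  simp only [d1_apply, tr_apply, cup] at e
  have z1 : z 1 = 0 := by
    have := e 1 D.one_mem 1 D.one_mem
    rw [mul_one, hu 1 D.one_mem (inP P).one_mem, zero_mul] at this
    linear_combination -this
  obtain ⟨t, ht, H⟩ := ti (k := k) h hl (I := D ⊓ inP P) inf_le_right (hU.inf hV)
  have az : ∀ s ∈ D ⊓ inP P, ∀ t ∈ D ⊓ inP P, z (s * t) = z s + z t := fun s hs t ht => by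
    have := e s hs.1 t ht.1
    rw [hu s hs.1 hs.2, zero_mul] at this
    linear_combination this
  have ab : ∀ s ∈ D ⊓ inP P, ∀ t ∈ D ⊓ inP P, b (s * t) = b s + b t := fun s hs t ht =>
    hb.1 s hs.1 t ht.1
  have zz : ∀ s ∈ D ⊓ inP P, s ∈ U ⊓ V → z s = 0 := fun s hs m => by
    rw [← one_mul s, eU 1 D.one_mem s hs.1 m.1, z1]
  have bb : ∀ s ∈ D ⊓ inP P, s ∈ U ⊓ V → b s = 0 := fun s hs m => eV s hs.1 m.2
  have hs' : φ * s * φ⁻¹ ∈ D ⊓ inP P :=
    ⟨D.mul_mem (D.mul_mem hφ hs) (D.inv_mem hφ), conj_inP (hD hφ) hi⟩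
  obtain ⟨n, hn⟩ := H s ⟨hs, hi⟩
  obtain ⟨m, hm⟩ := H _ hs'
  have f1 := e φ hφ s hs
  have f2 := e _ hs'.1 φ hφ
  have f3 := hb.1 φ hφ s hs
  have f4 := hb.1 _ hs'.1 φ hφ
  rw [inv_mul_cancel_right] at f2 f4
  rw [hu _ hs'.1 hs'.2, zero_mul] at f2
  have g1 : z (φ * s * φ⁻¹) = z s - u φ * b s := by linear_combination f1 - f2
  have g2 : b (φ * s * φ⁻¹) = b s := by linear_combination f3 - f4
  have g3 : u φ * b s * b s = 0 := by
    have : z (φ * s * φ⁻¹) * b s = z s * b (φ * s * φ⁻¹) := by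
      rw [hm z az zz, hm b ab bb, hn z az zz, hn b ab bb]; ring
    rw [g1, g2] at this
    linear_combination -this
  rcases mul_eq_zero.1 g3 with h0 | h0
  · exact h0
  · rw [h0, mul_zero]

end tame

theorem pw_sum {ι : Type} (s : Finset ι) (f : ι → ZMod p) :
    zt p ^ (∑ i ∈ s, f i).val = ∏ i ∈ s, zt p ^ (f i).val := by
  classical
  induction s using Finset.induction_on with
  | empty => simp
  | insert a s h ih => rw [Finset.sum_insert h, Finset.prod_insert h, pw_add, ih]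

/-- **the symbol of a norm is trivial** -/
theorem nrm {H : Subgroup GQ} (hz : H ≤ Gz p) {χ : GQ → ZMod p} (c : Ch H χ) {y : ZMod p → Qb}
    (y0 : ∀ a, y a ≠ 0) (hy : ∀ g ∈ H, ∀ a, g (y a) = y (a + χ g)) :
    (∀ g ∈ H, g (∏ a, y a) = ∏ a, y a) ∧ cup χ (ka p (∏ a, y a)) ∈ B2 ∅ H (tp p) := by
  have f1 : ∀ g ∈ H, g (∏ a, y a) = ∏ a, y a := fun g hg => by
    rw [map_prod]
    exact Fintype.prod_equiv (Equiv.addRight (χ g)) _ _ fun a => hy g hg a
  have n0 : ∏ a, y a ≠ 0 := Finset.prod_ne_zero_iff.2 fun a _ => y0 a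
  have ex : ∀ (g : GQ) a, ∃ κ : ZMod p, g ∈ H →
      g (rt p (y a)) = zt p ^ κ.val * rt p (y (a + χ g)) := fun g a => by
    by_cases hg : g ∈ H
    · exact (ex_log (by rw [← map_pow, rt_pow, rt_pow, hy g hg])).imp fun _ e _ => e
    · exact ⟨0, fun m => absurd m hg⟩
  choose κ hκ using ex
  have un : ∀ g ∈ H, ∀ a t, g (rt p (y a)) = zt p ^ t.val * rt p (y (a + χ g)) → κ g a = t :=
    fun g hg a t e => pw_inj (mul_right_cancel₀ (rt_ne (y0 _)) ((hκ g a hg).symm.trans e))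
  have co : ∀ g ∈ H, ∀ h ∈ H, ∀ a, κ (g * h) a = κ h a + κ g (a + χ h) := fun g hg h hh a =>
    un _ (mul_mem hg hh) a _ (by
      rw [AlgEquiv.mul_apply, hκ h a hh, map_mul, map_pow, mem_Gz'.1 (hz hg), hκ g _ hg, pw_add,
        c.1 g hg h hh, mul_assoc, add_assoc, add_comm (χ h)])
  have ev : ∀ g ∈ H, ka p (∏ a, y a) g = ∑ a, κ g a := fun g hg =>
    ka_eq (β := ∏ a, rt p (y a)) n0 (by simp only [← Finset.prod_pow, rt_pow]) (hz hg) (by
      rw [map_prod, Finset.prod_congr rfl fun a _ => hκ g a hg, Finset.prod_mul_distrib, pw_sum]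
      exact congrArg _ (Fintype.prod_equiv (Equiv.addRight (χ g)) _ _ fun a => rfl))
  obtain ⟨W, hW, eW⟩ := ex_lv (O := ⋂ a, (MulAction.stabilizer GQ (rt p (y a)) : Set GQ))
    (isOpen_iInter_of_finite fun a => stab_open _) (Set.mem_iInter.2 fun a => one_mem _)
  obtain ⟨V, hV, eV⟩ := c.2
  refine ⟨f1, ?_⟩
  have k : cup (ka p (∏ a, y a)) χ ∈ B2 ∅ H (tp p) := by
    refine ⟨fun g => ∑ a, a * κ g a, ⟨W ⊓ V, hW.inf hV, fun g hg w hw m => ?_⟩,
      fun g hg h hh => ?_⟩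
    · refine Finset.sum_congr rfl fun a _ => ?_
      rw [co g hg w hw, eV w hw m.2, add_zero, un w hw a 0 (by
        rw [eV w hw m.2, add_zero, ZMod.val_zero, pow_zero, one_mul]
        exact Set.mem_iInter.1 (eW m.1) a), zero_add]
    · have e := Fintype.sum_equiv (Equiv.addRight (χ h)) (fun a => a * κ g (a + χ h))
        (fun a => a * κ g a - κ g a * χ h) fun a => by simp only [Equiv.coe_addRight]; ring
      simp only [d1_apply, tr_apply, cup, ev g hg, co g hg h hh, mul_add, Finset.sum_add_distrib,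
        e, Finset.sum_sub_distrib, Finset.sum_mul]
      ring
  simpa using sub_mem (cup_skew c (ka_ch hz n0 f1)) k

/-! ### the auxiliary prime -/

theorem nsq (hl : l.Prime) (h : p ∣ l - 1) :
    ∃ a : ℕ, a.Coprime l ∧ (a : ZMod l) ^ ((l - 1) / p) ≠ 1 := by
  haveI : Fact l.Prime := ⟨hl⟩
  obtain ⟨g, hg⟩ := IsCyclic.exists_ofOrder_eq_natCard (α := (ZMod l)ˣ)
  rw [Nat.card_eq_fintype_card, ZMod.card_units] at hg
  have l1 : 0 < l - 1 := Nat.sub_pos_of_lt hl.one_lt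
  refine ⟨(g : ZMod l).val, ZMod.val_coe_unit_coprime g, fun e => ?_⟩
  rw [ZMod.natCast_zmod_val, ← Units.val_pow_eq_pow_val, Units.val_eq_one,
    ← orderOf_dvd_iff_pow_eq_one, hg] at e
  exact (Nat.le_of_dvd (Nat.div_pos (Nat.le_of_dvd l1 h) (Fact.out : p.Prime).pos) e).not_gt
    (Nat.div_lt_self l1 (Fact.out : p.Prime).one_lt)

theorem dir (S : Finset ℕ) (hS : ∀ l ∈ S, l.Prime ∧ l ≠ p ∧ p ∣ l - 1) (n : ℕ) :
    ∃ q : ℕ, n < q ∧ q.Prime ∧ q ≡ 1 [MOD p ^ (p + 1)] ∧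
      ∀ l ∈ S, (q : ZMod l) ^ ((l - 1) / p) ≠ 1 := by
  classical
  have hp : p.Prime := Fact.out
  have k : ∃ a m : ℕ, m ≠ 0 ∧ a.Coprime m ∧ (∀ r : ℕ, r.Prime → r ≠ p → r ∉ S → r.Coprime m) ∧
      ∀ q : ℕ, q ≡ a [MOD m] → q ≡ 1 [MOD p ^ (p + 1)] ∧
        ∀ l ∈ S, (q : ZMod l) ^ ((l - 1) / p) ≠ 1 := by
    induction S using Finset.induction_on with
    | empty =>
      refine ⟨1, p ^ (p + 1), pow_ne_zero _ hp.ne_zero, Nat.coprime_one_left _,
        fun r hr h2 _ => ?_, fun q hq => ⟨hq, by simp⟩⟩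
      exact Nat.Coprime.pow_right _ ((Nat.coprime_primes hr hp).2 h2)
    | insert l S hl ih =>
      obtain ⟨a, m, q0, c, hr, hq⟩ := ih fun x hx => hS x (Finset.mem_insert_of_mem hx)
      obtain ⟨lp, l2, l3⟩ := hS l (Finset.mem_insert_self l S)
      obtain ⟨b, hb, eb⟩ := nsq lp l3
      obtain ⟨k, k1, k2⟩ := Nat.chineseRemainder (hr l lp l2 hl) b a
      refine ⟨k, l * m, mul_ne_zero lp.ne_zero q0, Nat.Coprime.mul_right ?_ ?_,
        fun r rp r2 rS => Nat.Coprime.mul_right ?_ ?_, fun q h => ⟨?_, fun x hx => ?_⟩⟩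
      · exact k1.gcd_eq.trans hb
      · exact k2.gcd_eq.trans c
      · exact (Nat.coprime_primes rp lp).2 fun e => rS (e ▸ Finset.mem_insert_self _ _)
      · exact hr r rp r2 fun e => rS (Finset.mem_insert_of_mem e)
      · exact (hq q ((h.of_mul_left l).trans k2)).1
      · rcases Finset.mem_insert.1 hx with rfl | hx
        · rwa [(ZMod.natCast_eq_natCast_iff _ _ _).2 ((h.of_mul_right m).trans k1)]
        · exact (hq q ((h.of_mul_left l).trans k2)).2 x hx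
  obtain ⟨a, m, q0, c, -, hq⟩ := k
  obtain ⟨q, h1, h2, h3⟩ := Nat.forall_exists_prime_gt_and_modEq n q0 c
  exact ⟨q, h1, h2, hq q h3⟩

theorem dvd_sub (h : Ov l P) (hl : l ≠ p) {φ : GQ} (hφ : Fb l P φ) (hz : φ ∈ Gz p) : p ∣ l - 1 := by
  let ζ : 𝓞 Qb := ⟨zt p, (zt_prim p).isIntegral (Fact.out : p.Prime).pos⟩
  have e : ζ ^ p = 1 := RingOfIntegers.ext zt_pow
  have e1 : φ • ζ = ζ := RingOfIntegers.ext (mem_Gz'.1 hz)
  have e2 : zt p = zt p ^ l := congrArg Subtype.val (P022E.GW.Unr.root_inj h.2.1 (p_notMem h hl) e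
    (by rw [← pow_mul, mul_comm, pow_mul, e, one_pow]) (e1 ▸ hφ ζ))
  refine ((zt_prim p).pow_eq_one_iff_dvd _).1 (mul_right_cancel₀ (zt_ne (p := p)) ?_)
  rw [← pow_succ, Nat.sub_add_cancel h.1.one_le, one_mul, ← e2]

theorem frob {q : ℕ} (hq : q.Prime) (hl : l ≠ q) (hd : p ∣ l - 1)
    (he : (q : ZMod l) ^ ((l - 1) / p) ≠ 1) (h : Ov l P) {φ : GQ} (hφ : Fb l P φ) :
    ka p (q : Qb) φ ≠ 0 := fun c => by
  have hp : p.Prime := Fact.out
  let X : 𝓞 Qb := ⟨rt p q, IsIntegral.of_pow hp.pos (by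
    rw [rt_pow]; exact (q : 𝓞 Qb).isIntegral_coe)⟩
  have e : X ^ p = q := RingOfIntegers.ext (rt_pow p q)
  have e1 : φ • X = X := RingOfIntegers.ext (by
    have := ka_spec (p := p) (map_natCast φ q)
    rwa [c, ZMod.val_zero, pow_zero, one_mul] at this)
  have e2 := hφ X
  have e4 : X ^ l = X * (q : 𝓞 Qb) ^ ((l - 1) / p) := by
    rw [← e, ← pow_mul, ← pow_succ', Nat.mul_div_cancel' hd, Nat.sub_add_cancel h.1.one_le]
  have o : 1 ≤ q ^ ((l - 1) / p) := Nat.one_le_pow _ _ hq.pos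
  rw [e1, e4, ← neg_mem_iff, neg_sub, ← mul_sub_one] at e2
  rcases h.2.1.mem_or_mem e2 with k | k
  · exact cop ((Nat.coprime_primes h.1 hq).2 hl) h.2.1 h.2.2 (e ▸ P.pow_mem_of_mem k p hp.pos)
  · refine cop (b := q ^ ((l - 1) / p) - 1) ((Nat.Prime.coprime_iff_not_dvd h.1).2 fun d => he ?_)
      h.2.1 h.2.2 (by rwa [Nat.cast_sub o, Nat.cast_pow, Nat.cast_one])
    rw [← ZMod.natCast_eq_zero_iff, Nat.cast_sub o, Nat.cast_pow, Nat.cast_one] at d
    exact sub_eq_zero.1 d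

theorem at_p {q : ℕ} (q0 : 0 < q) (hq : q ≡ 1 [MOD p ^ (p + 1)]) (h : Ov p P) {g : GQ}
    (hg : g ∈ dec P) (hz : g ∈ Gz p) : ka p (q : Qb) g = 0 := by
  obtain ⟨e, he⟩ := ex_em h
  obtain ⟨t, ht⟩ := (Nat.modEq_iff_dvd' q0).1 hq.symm
  have e1 : (1 : PadicAlgCl p) - e q = -((p : PadicAlgCl p) ^ (p + 1) * t) := by
    rw [map_natCast, ← Nat.sub_add_cancel q0, ht]; push_cast; ring
  have n1 : ‖(p : PadicAlgCl p)‖ < 1 := by simpa using (he.mem p).1 h.2.2
  have n0 : 0 < ‖(p : PadicAlgCl p)‖ :=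
    norm_pos_iff.2 (Nat.cast_ne_zero.2 (Fact.out : p.Prime).ne_zero)
  refine ka_near (e := e) (A := dec P ⊓ Gz p) (Nat.cast_ne_zero.2 q0.ne') ?_ inf_le_right
    (fun g _ => map_natCast g q) (fun g m => he.norm m.1) g ⟨hg, hz⟩
  rw [e1, norm_neg, norm_mul, norm_pow, pow_succ, mul_assoc]
  exact mul_lt_of_lt_one_right (pow_pos n0 _)
    ((mul_le_of_le_one_right n0.le (IsUltrametricDist.norm_natCast_le_one _ t)).trans_lt n1)

/-- **the auxiliary prime** -/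
theorem prime {H : Subgroup GQ} (hH : IsOpen (H : Set GQ)) (S : Finset ℕ)
    (hS : ∀ l ∈ S, l.Prime ∧ l ≠ p ∧ p ∣ l - 1) : ∃ q : ℕ, q.Prime ∧ q ≠ p ∧ q ∉ S ∧
    (∀ P, Ov q P → ∀ g, Inert P g → g ∈ H) ∧
    (∀ l ∈ S, ∀ P φ, Ov l P → Fb l P φ → ka p (q : Qb) φ ≠ 0) ∧
    (∀ P, Ov p P → ∀ g ∈ dec P, g ∈ Gz p → ka p (q : Qb) g = 0) ∧
    (∀ l P, l ≠ q → Ov l P → ∀ g ∈ Gz p, Inert P g → ka p (q : Qb) g = 0) := by
  obtain ⟨n, n0, hn⟩ := P022E.GW.Fx2.fin_ram H hH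
  obtain ⟨q, h1, hq, h8, he⟩ := dir S hS (n + p + S.sup id)
  have pS : q ∉ S := fun h => by
    have : q ≤ S.sup id := Finset.le_sup (f := id) h
    omega
  refine ⟨q, hq, by omega, pS, fun P hP g hg => hn P hP.2.1 (cop ?_ hP.2.1 hP.2.2) g hg,
    fun l hl P φ hP hφ => frob hq (fun e => pS (e ▸ hl)) (hS l hl).2.2 (he l hl) hP hφ,
    fun P hP g hg hz => at_p hq.pos h8 hP hg hz, fun l P hl hP g hz hg => ?_⟩
  · exact (Nat.Prime.coprime_iff_not_dvd hq).2 (Nat.not_dvd_of_pos_of_lt (by omega) (by omega))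
  · by_cases l2 : l = p
    · subst l2
      exact at_p hq.pos h8 hP (inP_le_dec hg) hz
    · exact ka_int (x := (q : 𝓞 Qb)) hP l2 (cop ((Nat.coprime_primes hP.1 hq).2 hl) hP.2.1 hP.2.2)
        hg (map_natCast g q)

/-! ### orders -/

variable {K : Type} [Field K] [NumberField K] {j : K →+* Qb} {v : HeightOneSpectrum (𝓞 K)}

theorem val_lt (hv : (l : 𝓞 K) ∈ v.asIdeal) : v.valuation K (l : K) < v.valuation K 1 := by
  have := (v.valuation_lt_one_iff_mem (K := K) (l : 𝓞 K)).2 hv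
  rw [map_one]
  simpa using this

/-- a place of degree one is not ramified -/
theorem ordl (h : Ov l P) (hv : below j P = v.asIdeal) (le : dec P ≤ GK j) :
    ordv v (l : K) = 1 := by
  obtain ⟨π, hπ⟩ := v.valuation_exists_uniformizer K
  have π0 : π ≠ 0 := fun e => by
    rw [e, map_zero] at hπ
    exact WithZero.exp_ne_zero hπ.symm
  obtain ⟨a, ha⟩ := apx h (j := algebraMap ℚ Qb) (x := j π) (y := j π) (fun g hg => le hg.2 π)
    ((map_ne_zero j).2 π0)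
  have e : (vr h).valuation (algebraMap ℚ Qb a) = (vr h).valuation (j π) :=
    Valuation.map_eq_of_sub_lt _ (by rwa [Valuation.map_sub_swap])
  have a0 : a ≠ 0 := by
    rintro rfl
    rw [map_zero, map_zero] at e
    exact (map_ne_zero j).2 π0 ((Valuation.zero_iff _).1 e.symm)
  have l0 : (l : K) ≠ 0 := Nat.cast_ne_zero.2 h.1.ne_zero
  have h1 := (v_res h hv π 1).2 (by rw [hπ, map_one, ← WithZero.exp_zero, WithZero.exp_lt_exp]; simp)
  rw [← e, map_one j, ← map_one (algebraMap ℚ Qb), v_res h (w := blw _ h) rfl, map_one, val_eq _ a0,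
    ← WithZero.exp_zero, WithZero.exp_lt_exp] at h1
  have h2 := (v_res h hv l π).not
  rw [← e, map_natCast, ← map_natCast (algebraMap ℚ Qb), v_res h (w := blw _ h) rfl, val_eq _ a0,
    val_eq _ (Nat.cast_ne_zero.2 h.1.ne_zero : (l : ℚ) ≠ 0), ordv_rat, hπ, val_eq _ l0,
    WithZero.exp_lt_exp, WithZero.exp_lt_exp] at h2
  have h3 := val_lt ((nat_mem j hv l).2 h.2.2)
  rw [map_one, val_eq _ l0, ← WithZero.exp_zero, WithZero.exp_lt_exp] at h3
  have := h2.1 (by omega)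
  omega

/-- the value of a Kummer character at a generator of tame inertia -/
theorem ka_ord (h : Ov l P) (hl : l ≠ p) (hv : below j P = v.asIdeal) (le : dec P ≤ GK j) {y : K}
    (y0 : y ≠ 0) {τ : GQ} (hτ : Inert P τ) :
    ka p (j y) τ = (ordv v y : ZMod p) * ka p (l : Qb) τ := by
  have l0 : (l : K) ≠ 0 := Nat.cast_ne_zero.2 h.1.ne_zero
  have l1 : (l : Qb) ≠ 0 := Nat.cast_ne_zero.2 h.1.ne_zero
  have m := le (inP_le_dec hτ)
  have z := inert_gz h hl hτ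
  have := ka_of_dvd j h hl hv (mul_ne_zero y0 (zpow_ne_zero (-ordv v y) l0)) (by
    rw [ordv_mul v y0 (zpow_ne_zero _ l0), ordv_zpow v l0, ordl h hv le]; simp) m hτ
  rw [map_mul, map_zpow₀, map_natCast, ka_mul ((map_ne_zero j).2 y0) (zpow_ne_zero _ l1) z (m y)
    (by rw [map_zpow₀, map_natCast]), ka_zpow l1 z (map_natCast τ l)] at this
  push_cast at this
  linear_combination this

/-- **adjustment by a norm** -/
theorem adj (hz : GK j ≤ Gz p) {q : ℕ} (hq : q.Prime) (qp : q ≠ p)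
    (hI : ∀ P, Ov q P → ∀ g, Inert P g → g ∈ GK j) {b : K} (b0 : b ≠ 0) :
    ∃ n : K, n ≠ 0 ∧ cup (ka p (q : Qb)) (ka p (j n)) ∈ B2 ∅ (GK j) (tp p) ∧
      ∀ v ∈ P022D.Sel.ov K {q}, (p : ℤ) ∣ ordv v (b * n) := by
  classical
  have hp : p.Prime := Fact.out
  have q0 : (q : K) ≠ 0 := Nat.cast_ne_zero.2 hq.ne_zero
  have q1 : (q : Qb) ≠ 0 := Nat.cast_ne_zero.2 hq.ne_zero
  have ovp : ∀ v ∈ P022D.Sel.ov K {q}, ∃ P, Ov q P ∧ below j P = v.asIdeal := by
    rintro v ⟨a, ha, -, hv⟩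
    obtain rfl := Finset.mem_singleton.1 ha
    obtain ⟨P', a1, a2⟩ := P022E.GW.Kc.ex_above j v
    exact ⟨P', ⟨hq, a1, (nat_mem j a2 _).1 hv⟩, a2⟩
  have ex : ∀ v : HeightOneSpectrum (𝓞 K), ∃ r < p, v ∈ P022D.Sel.ov K {q} →
      (p : ℤ) ∣ ordv v b + r * ordv v (q : K) := fun v => by
    refine ⟨(-(ordv v b : ZMod p) / (ordv v (q : K) : ZMod p)).val, ZMod.val_lt _, fun hv => ?_⟩
    obtain ⟨P, h, e⟩ := ovp v hv
    obtain ⟨τ, t1, t2⟩ := ex_tau (p := p) h qp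
    have : (ordv v (q : K) : ZMod p) ≠ 0 := fun c => by
      have := ka_of_dvd j h qp e q0 ((ZMod.intCast_zmod_eq_zero_iff_dvd _ _).1 c) (hI P h τ t1) t1
      rw [map_natCast, t2] at this
      exact one_ne_zero this
    rw [← ZMod.intCast_zmod_eq_zero_iff_dvd]
    push_cast
    rw [ZMod.natCast_zmod_val, div_mul_cancel₀ _ this, add_neg_cancel]
  choose r rp hr using ex
  have fo := P022D.Sel.Pl.fin_ov (L := K) {q}
  choose c hc using fun i : ℕ => P011.Arith.approxVal fo.toFinset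
    (fun v => if i = r v then (1 : K) else 0) (fun v => v.valuation K q)
    (fun v _ => (Valuation.ne_zero_iff _).2 q0) (fun _ => 0) one_pos
  let y : ZMod p → Qb := fun a => ∑ i ∈ Finset.range p, j (c i) * (zt p ^ a.val * rt p q) ^ i
  have key : ∀ v ∈ P022D.Sel.ov K {q}, ∀ P (h : Ov q P), below j P = v.asIdeal → ∀ a,
      (vr h).valuation (y a) = (vr h).valuation (rt p q) ^ r v := fun v hv P h e a => by
    set V := (vr h).valuation
    have t1 : V (rt p q) ^ p = V q := by rw [← map_pow, rt_pow]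
    have t2 : V q < 1 := by
      have := (v_res h e q 1).2 (val_lt ((nat_mem j e q).2 h.2.2))
      rwa [map_natCast, map_one, map_one] at this
    have t3 : V (rt p q) ≤ 1 := (pow_le_one_iff hp.ne_zero).1 (t1 ▸ t2.le)
    have t4 : V (zt p ^ a.val * rt p q) = V (rt p q) := by
      rw [map_mul, (pow_eq_one_iff_left hp.ne_zero).1 (show V (zt p ^ a.val) ^ p = 1 by
        rw [← map_pow, pw_pow, map_one]), one_mul]
    rw [← t4, ← map_pow]
    refine Valuation.map_eq_of_sub_lt _ ?_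
    have e1 : y a - (zt p ^ a.val * rt p q) ^ r v = ∑ i ∈ Finset.range p,
        j (c i - if i = r v then 1 else 0) * (zt p ^ a.val * rt p q) ^ i := by
      simp only [y, map_sub, sub_mul, Finset.sum_sub_distrib, apply_ite j, map_one, map_zero,
        ite_mul, one_mul, zero_mul, Finset.sum_ite_eq', Finset.mem_range, rp v, if_true]
    rw [e1]
    refine Valuation.map_sum_lt _ ((Valuation.ne_zero_iff _).2
      (pow_ne_zero _ (mul_ne_zero (pow_ne_zero _ zt_ne) (rt_ne q1)))) fun i _ => ?_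
    have t5 := (v_res h e _ _).2 ((hc i).1 v (fo.mem_toFinset.2 hv))
    rw [map_natCast] at t5
    rw [map_mul, map_pow, map_pow, t4]
    exact ((mul_le_of_le_one_right' (pow_le_one' t3 i)).trans_lt t5).trans_le
      (t1 ▸ pow_le_pow_right_of_le_one' t3 (rp v).le)
  have y0 : ∀ a, y a ≠ 0 := fun a e => by
    obtain ⟨P, h⟩ := GW.Pl.ex_ov hq
    have := key (blw j h) ⟨q, Finset.mem_singleton_self q, hq.ne_zero,
      (nat_mem j (v := blw j h) rfl q).2 h.2.2⟩ P h rfl a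
    rw [e, map_zero] at this
    exact pow_ne_zero _ ((Valuation.ne_zero_iff _).2 (rt_ne q1)) this.symm
  obtain ⟨f1, f2⟩ := nrm hz (ka_ch hz q1 fun g _ => map_natCast g q) y0 fun g hg a => by
    simp only [y, map_sum, map_mul, map_pow, hg (c _), mem_Gz'.1 (hz hg),
      ka_spec (p := p) (map_natCast g q), pw_add, mul_assoc]
  obtain ⟨n, hn⟩ := fixed j (x := ∏ a, y a) fun g => f1 g g.2
  have n0 : n ≠ 0 := fun e => Finset.prod_ne_zero_iff.2 (fun a _ => y0 a) (by rw [← hn, e, map_zero])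
  refine ⟨n, n0, hn ▸ f2, fun v hv => ?_⟩
  obtain ⟨P, h, e⟩ := ovp v hv
  have e1 : (vr h).valuation (j n) = (vr h).valuation (j (q ^ r v)) := by
    rw [hn, map_prod, Finset.prod_congr rfl fun a _ => key v hv P h e a, Finset.prod_const,
      Finset.card_univ, ZMod.card, ← pow_mul, mul_comm, pow_mul, ← map_pow, rt_pow, map_pow j,
      map_natCast j, map_pow]
  have e2 : v.valuation K n = v.valuation K (q ^ r v) :=
    le_antisymm (not_lt.1 ((v_res h e _ _).not.1 e1.le.not_gt))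
      (not_lt.1 ((v_res h e _ _).not.1 e1.ge.not_gt))
  rw [ordv_mul v b0 n0, show ordv v n = ordv v ((q : K) ^ r v) by rw [ordv, e2, ordv],
    ordv_pow v q0]
  exact hr v hv

end Vale.Agent.P014U.G2.On
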